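import Vale.Agent.P096.Full.Reduce.Groups.Systems
import Vale.Agent.P085.Bridge.Block

/-!
P096, groups: under the continuous part, a sequence of nested blocks whose averages bring countably
many self-adjoint elements to the centre gives a system; what commutes with it is central there.
-/

open scoped InnerProductSpace
open Filter Topology
open Vale.Agent.P104 Vale.Agent.P104.Continuous VP085.Bridge

namespace Vale.Agent.P096.Full.Reduce.Grp

variable {H : Type} [NormedAddCommGroup H] [InnerProductSpace ℂ H] [CompleteSpace H]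
  {M : VonNeumannAlgebra H}

/-- A block of `z` with bounds for the distances of the averaged elements to the centre. -/
structure CState (H : Type) [NormedAddCommGroup H] [InnerProductSpace ℂ H] where
  n : ℕ
  p : H →L[ℂ] H
  V : Fin n → (H →L[ℂ] H)
  err : ℕ → ℝ

/-- The invariant of a state. -/
structure CState.Ok (M : VonNeumannAlgebra H) (z : H →L[ℂ] H) (y : ℕ → (H →L[ℂ] H))
    (s : CState H) : Prop where
  pos : 0 < s.n
  block : Block M z s.p s.V
  pz : s.p * z = s.p
  near : ∀ m, ∃ c, InCentre M c ∧ IsSelfAdjoint c ∧ ‖down s.V (y m) - c * s.p‖ ≤ s.err m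

lemma down_central {p p' : H →L[ℂ] H} {n : ℕ} {R : Fin n → (H →L[ℂ] H)} (hR : Block M p p' R)
    {c : H →L[ℂ] H} (hc : InCentre M c) (X : H →L[ℂ] H) : down R (c * X) = c * down R X := by
  simp only [down, mul_smul_comm, Finset.mul_sum]
  refine congrArg _ (Finset.sum_congr rfl fun a _ => ?_)
  calc R a * (c * X) * star (R a) = (R a * c) * X * star (R a) := by simp only [mul_assoc]
    _ = _ := by rw [← hc.2 _ (hR.mem a)]; simp only [mul_assoc]

lemma comb_central {p p' : H →L[ℂ] H} {n : ℕ} {R : Fin n → (H →L[ℂ] H)} (hR : Block M p p' R)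
    {c : H →L[ℂ] H} (hc : InCentre M c) (X : H →L[ℂ] H) : comb R (c * X) = c * comb R X := by
  simp only [comb, Finset.mul_sum]
  refine Finset.sum_congr rfl fun a _ => ?_
  calc star (R a) * (c * X) * R a = (star (R a) * c) * X * R a := by simp only [mul_assoc]
    _ = _ := by rw [← hc.2 _ (star_mem (hR.mem a))]; simp only [mul_assoc]

lemma CState.Ok.sa_sub {z : H →L[ℂ] H} {y : ℕ → (H →L[ℂ] H)} {s : CState H} (h : s.Ok M z y)
    {m : ℕ} (hys : IsSelfAdjoint (y m)) {c : H →L[ℂ] H} (hc : InCentre M c)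
    (hcs : IsSelfAdjoint c) : IsSelfAdjoint (down s.V (y m) - c * s.p) :=
  (down_sa _ hys).sub (by
    rw [IsSelfAdjoint, star_mul, hcs.star_eq, h.block.proj.isSelfAdjoint.star_eq,
      hc.2 _ h.block.memP])

/-- The next state: halve, improving the `i`th element. -/
lemma exists_next_state {z : H →L[ℂ] H} (hc : ContinuousPart M z) {y : ℕ → (H →L[ℂ] H)}
    (hyM : ∀ m, y m ∈ M) (hys : ∀ m, IsSelfAdjoint (y m)) {s : CState H} (h : s.Ok M z y)
    (i : ℕ) :
    ∃ s' : CState H, s'.Ok M z y ∧ (∃ R : Fin 2 → (H →L[ℂ] H), Block M s.p s'.p R ∧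
      ∃ hn : s'.n = s.n * 2, ∀ a, s'.V a = compR s.V R (Fin.cast hn a)) ∧
      (∀ m, s'.err m ≤ s.err m) ∧ s'.err i ≤ 3 / 4 * s.err i := by
  have hnn : ∀ m, 0 ≤ s.err m := fun m => by
    obtain ⟨c, -, -, hcm⟩ := h.near m
    exact (norm_nonneg _).trans hcm
  obtain ⟨c, hcC, hcs, hci⟩ := h.near i
  set d := down s.V (y i) - c * s.p with hd
  have hP := h.block.proj
  have hpp := hP.isIdempotentElem.eq
  have hdM : d ∈ M := sub_mem (h.block.down_mem (hyM i)) (mul_mem hcC.1 h.block.memP)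
  have hpd : s.p * d = d := by
    rw [hd, mul_sub, h.block.left_down, ← mul_assoc, ← hcC.2 _ h.block.memP, mul_assoc, hpp]
  obtain ⟨q, hqM, w, hwM, hqP, hqp, hww, hsum, hqw, hpw, c', hc'C, hc's, hcn⟩ :=
    step hc h.block.memP hP h.pz hdM (h.sa_sub (hys i) hcC hcs) hpd le_rfl
  have hqs := hqP.isSelfAdjoint.star_eq
  have hqw' : q * star w = star w := by
    have : w * q = w := by rw [← hww]; exact pi_mul_self (hww.symm ▸ hqP)
    simpa [hqs] using congrArg star this
  have hwp : star w * s.p = star w := by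
    simpa [hP.isSelfAdjoint.star_eq] using congrArg star hpw
  have hwq : star w * q = 0 := by simpa [hqs] using congrArg star hqw
  have hR : Block M s.p q ![q, star w] := by
    refine ⟨?_, ?_, ?_, ?_, ?_, hqP, hqM⟩
    · intro a; fin_cases a <;> simp [hqM, star_mem hwM]
    · intro a; fin_cases a <;> simp [hqP.isIdempotentElem.eq, hqw']
    · intro a; fin_cases a <;> simp [hqp, hwp]
    · intro a b
      fin_cases a <;> fin_cases b <;>
        simp [hqs, hqP.isIdempotentElem.eq, hqw, hwq, hww]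
    · simp [Fin.sum_univ_two, hqs, hqP.isIdempotentElem.eq, hsum]
  have hdown : ‖down ![q, star w] d - c' * q‖ ≤ 3 * ‖d‖ / 4 := by
    refine le_trans (le_of_eq ?_) hcn
    congr 1
    simp only [down, Fin.sum_univ_two, Matrix.cons_val_zero, Matrix.cons_val_one, hqs, star_star,
      RCLike.real_smul_eq_coe_smul (K := ℂ) (2⁻¹ : ℝ)]
    norm_num
  refine ⟨⟨s.n * 2, q, compR s.V ![q, star w],
    fun m => if m = i then 3 / 4 * s.err m else s.err m⟩,
    ⟨Nat.mul_pos h.pos two_pos, h.block.comp hR, by rw [← hqp, mul_assoc, h.pz], fun m => ?_⟩,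
    ⟨![q, star w], hR, rfl, fun a => rfl⟩, fun m => ?_, by simp⟩
  · dsimp only
    split_ifs with hm
    · subst hm
      refine ⟨c + c', ⟨add_mem hcC.1 hc'C.1, fun x hx => by
        rw [add_mul, mul_add, hcC.2 x hx, hc'C.2 x hx]⟩, hcs.add hc's, ?_⟩
      have e : down (compR s.V ![q, star w]) (y m) - (c + c') * q =
          down ![q, star w] d - c' * q := by
        rw [down_compR, hd, down_sub, down_central hR hcC, hR.down_p two_pos, add_mul]
        abel
      rw [e]
      linarith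
    · obtain ⟨e, heC, hes, hem⟩ := h.near m
      refine ⟨e, heC, hes, le_trans (le_of_eq ?_) ((hR.norm_down_le _).trans hem)⟩
      rw [down_compR, down_sub, down_central hR heC, hR.down_p two_pos]
  · dsimp only
    split_ifs
    · linarith [hnn m]
    · exact le_rfl

/-- A compatible sequence of blocks of `z`. -/
structure CSeq (M : VonNeumannAlgebra H) (z : H →L[ℂ] H) (y : ℕ → (H →L[ℂ] H)) where
  s : ℕ → CState H
  ok : ∀ K, (s K).Ok M z y
  R : ℕ → Fin 2 → (H →L[ℂ] H)
  block : ∀ K, Block M (s K).p (s (K + 1)).p (R K)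
  size : ∀ K, (s (K + 1)).n = (s K).n * 2
  V_succ : ∀ K a, (s (K + 1)).V a = compR (s K).V (R K) (Fin.cast (size K) a)
  err_succ : ∀ K m, (s (K + 1)).err m ≤ (s K).err m
  err_hit : ∀ K, (s (K + 1)).err (Nat.unpair K).1 ≤ 3 / 4 * (s K).err (Nat.unpair K).1

lemma exists_cseq {z : H →L[ℂ] H} (hz : IsCentralProj M z) (hc : ContinuousPart M z)
    {y : ℕ → (H →L[ℂ] H)} (hyM : ∀ m, y m ∈ M) (hys : ∀ m, IsSelfAdjoint (y m)) :
    Nonempty (CSeq M z y) := by
  have zz := hz.1.isIdempotentElem.eq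
  have hB : Block M z z (fun _ : Fin 1 => z) :=
    ⟨fun _ => hz.2.1, fun _ => zz, fun _ => zz, fun a b => by
      rw [if_pos (Subsingleton.elim a b), hz.1.isSelfAdjoint.star_eq, zz], by
      simp [hz.1.isSelfAdjoint.star_eq, zz], hz.1, hz.2.1⟩
  have h0 : (⟨1, z, fun _ => z, fun m => ‖down (fun _ : Fin 1 => z) (y m)‖⟩ : CState H).Ok M z y :=
    ⟨one_pos, hB, zz, fun m => ⟨0, ⟨zero_mem M, fun x _ => by simp⟩, .zero _, by simp⟩⟩
  choose next hnext hstep herr hhit using
    fun (K : ℕ) (s : {s : CState H // s.Ok M z y}) =>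
      exists_next_state hc hyM hys s.2 (Nat.unpair K).1
  choose R hR hn hV using hstep
  let S : ℕ → {s : CState H // s.Ok M z y} :=
    fun K => Nat.rec ⟨_, h0⟩ (fun K s => ⟨next K s, hnext K s⟩) K
  exact ⟨
    { s := fun K => (S K).1
      ok := fun K => (S K).2
      R := fun K => R K (S K)
      block := fun K => hR K (S K)
      size := fun K => hn K (S K)
      V_succ := fun K a => hV K (S K) a
      err_succ := fun K m => herr K (S K) m
      err_hit := fun K => hhit K (S K) }⟩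

namespace CSeq

variable {z : H →L[ℂ] H} {y : ℕ → (H →L[ℂ] H)} (Q : CSeq M z y)

lemma err_small (m : ℕ) {ε : ℝ} (hε : 0 < ε) : ∃ K, (Q.s K).err m < ε := by
  have anti : Antitone fun K => (Q.s K).err m := antitone_nat_of_succ_le fun K => Q.err_succ K m
  have h0 : 0 ≤ (Q.s 0).err m := by
    obtain ⟨c, -, -, hc⟩ := (Q.ok 0).near m
    exact (norm_nonneg _).trans hc
  have hp : ∀ j, (Q.s (Nat.pair m j + 1)).err m ≤ (3 / 4 : ℝ) ^ (j + 1) * (Q.s 0).err m := by
    intro j
    induction j with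
    | zero =>
      refine le_trans (by simpa using Q.err_hit (Nat.pair m 0)) ?_
      simpa using mul_le_mul_of_nonneg_left (anti (Nat.zero_le (Nat.pair m 0)))
        (by norm_num : (0 : ℝ) ≤ 3 / 4)
    | succ j ih =>
      refine le_trans (by simpa using Q.err_hit (Nat.pair m (j + 1))) ?_
      rw [pow_succ', mul_assoc]
      exact mul_le_mul_of_nonneg_left
        ((anti (Nat.pair_lt_pair_right m j.lt_succ_self)).trans ih) (by norm_num)
  obtain ⟨j, hj⟩ := exists_pow_lt_of_lt_one (show 0 < ε / ((Q.s 0).err m + 1) by positivity)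
    (show (3 / 4 : ℝ) < 1 by norm_num)
  refine ⟨Nat.pair m j + 1, (hp j).trans_lt ?_⟩
  rw [lt_div_iff₀ (by positivity)] at hj
  refine lt_of_le_of_lt ?_ hj
  exact mul_le_mul (pow_le_pow_of_le_one (by norm_num) (by norm_num) j.le_succ) (by linarith) h0
    (by positivity)

/-- A unit of the `K`th block. -/
noncomputable def unit (K : ℕ) (a b : Fin (Q.s K).n) : H →L[ℂ] H :=
  star ((Q.s K).V a) * (Q.s K).V b

lemma unit_mem (K : ℕ) (a b : Fin (Q.s K).n) : Q.unit K a b ∈ M :=
  mul_mem (star_mem ((Q.ok K).block.mem a)) ((Q.ok K).block.mem b)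

lemma star_unit (K : ℕ) (a b : Fin (Q.s K).n) : star (Q.unit K a b) = Q.unit K b a := by
  rw [unit, star_mul, star_star, unit]

lemma unit_mul (K : ℕ) (a b c d : Fin (Q.s K).n) :
    Q.unit K a b * Q.unit K c d = if b = c then Q.unit K a d else 0 :=
  (Q.ok K).block.unit_mul a b c d

lemma unit_proj (K : ℕ) (a : Fin (Q.s K).n) : IsStarProjection (Q.unit K a a) :=
  ⟨by show Q.unit K a a * Q.unit K a a = _; rw [unit_mul, if_pos rfl],
    IsSelfAdjoint.star_mul_self _⟩

lemma unit_sum (K : ℕ) : ∑ a, Q.unit K a a = z := (Q.ok K).block.sum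

/-- The indices of the next block. -/
noncomputable def idx (K : ℕ) (a : Fin (Q.s K).n) (b : Fin 2) : Fin (Q.s (K + 1)).n :=
  Fin.cast (Q.size K).symm (finProdFinEquiv (a, b))

lemma V_idx (K : ℕ) (a : Fin (Q.s K).n) (b : Fin 2) :
    (Q.s (K + 1)).V (Q.idx K a b) = Q.R K b * (Q.s K).V a := by
  rw [Q.V_succ, idx, Fin.cast_cast, Fin.cast_eq_self, compR, Equiv.symm_apply_apply]

lemma idx_surj (K : ℕ) (c : Fin (Q.s (K + 1)).n) : ∃ a b, Q.idx K a b = c := by
  obtain ⟨⟨a, b⟩, h⟩ := finProdFinEquiv.surjective (Fin.cast (Q.size K) c)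
  exact ⟨a, b, by rw [idx, h, Fin.cast_cast, Fin.cast_eq_self]⟩

lemma unit_next (K : ℕ) (i j a c : Fin (Q.s K).n) (b d : Fin 2) :
    Q.unit K i j * Q.unit (K + 1) (Q.idx K a b) (Q.idx K c d) =
      if j = a then Q.unit (K + 1) (Q.idx K i b) (Q.idx K c d) else 0 := by
  simp only [unit, V_idx, star_mul]
  calc _ = star ((Q.s K).V i) * ((Q.s K).V j * star ((Q.s K).V a)) *
        (star (Q.R K b) * (Q.R K d * (Q.s K).V c)) := by simp only [mul_assoc]
    _ = _ := by
      rw [(Q.ok K).block.orth]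
      split_ifs
      · rw [mul_assoc, ← mul_assoc ((Q.s K).p),
          (Q.block K).star_right (Q.ok K).block.proj b]
        simp only [mul_assoc]
      · simp

open Classical in
/-- The system of the blocks. -/
noncomputable def sys (hz : IsCentralProj M z) (cen : ℕ → Finset (H →L[ℂ] H)) :
    BSys M cen z where
  B K := (Finset.univ : Finset (Fin (Q.s K).n × Fin (Q.s K).n)).image
    fun p => Q.unit K p.1 p.2
  D K := (Finset.univ : Finset (Fin (Q.s K).n)).image fun a => Q.unit K a a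
  mem K s hs := by
    obtain ⟨⟨a, b⟩, -, rfl⟩ := Finset.mem_image.1 hs
    exact Q.unit_mem K a b
  supp K s hs := by
    obtain ⟨⟨a, b⟩, -, rfl⟩ := Finset.mem_image.1 hs
    exact ((Q.ok K).block.unit_corner hz.1 a b).1
  sub K s hs := by
    obtain ⟨a, -, rfl⟩ := Finset.mem_image.1 hs
    exact Finset.mem_image.2 ⟨(a, a), Finset.mem_univ _, rfl⟩
  proj K s hs := by
    obtain ⟨a, -, rfl⟩ := Finset.mem_image.1 hs
    exact Q.unit_proj K a
  orth K s hs t ht hne := image_orth _ _ (fun i _ j _ hij => by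
    rw [unit_mul, if_neg hij]) hs ht hne
  sum K := by
    rw [sum_image_orth _ _ (fun i _ => (Q.unit_proj K i).isIdempotentElem.eq)
      (fun i _ j _ hij => by rw [unit_mul, if_neg hij]), unit_sum]
  star' K s hs := by
    obtain ⟨⟨a, b⟩, -, rfl⟩ := Finset.mem_image.1 hs
    exact Finset.mem_image.2 ⟨(b, a), Finset.mem_univ _, (Q.star_unit K a b).symm⟩
  off K s hs := by
    obtain ⟨⟨a, b⟩, -, rfl⟩ := Finset.mem_image.1 hs
    by_cases h : a = b
    · subst h; exact Or.inl (Finset.mem_image.2 ⟨a, Finset.mem_univ _, rfl⟩)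
    · exact Or.inr (by rw [unit_mul, if_neg (Ne.symm h)])
  init K q _ s hs := by
    obtain ⟨⟨a, b⟩, -, rfl⟩ := Finset.mem_image.1 hs
    refine Or.inr ⟨Q.unit K b b, Finset.mem_image.2 ⟨b, Finset.mem_univ _, rfl⟩, ?_⟩
    rw [star_unit, unit_mul, if_pos rfl]
  mul K q _ s hs t ht := by
    obtain ⟨⟨a, b⟩, -, rfl⟩ := Finset.mem_image.1 hs
    obtain ⟨⟨c, d⟩, -, rfl⟩ := Finset.mem_image.1 ht
    rw [unit_mul]
    split_ifs
    · exact Or.inr ⟨_, Finset.mem_image.2 ⟨(a, d), Finset.mem_univ _, rfl⟩, rfl⟩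
    · exact Or.inl (mul_zero q)
  mixed K q _ s hs t ht := by
    obtain ⟨⟨i, j⟩, -, rfl⟩ := Finset.mem_image.1 hs
    obtain ⟨⟨u, v⟩, -, rfl⟩ := Finset.mem_image.1 ht
    obtain ⟨a, b, rfl⟩ := Q.idx_surj K u
    obtain ⟨c, d, rfl⟩ := Q.idx_surj K v
    rw [unit_next]
    split_ifs
    · exact Or.inr ⟨_, Finset.mem_image.2 ⟨(_, _), Finset.mem_univ _, rfl⟩, rfl⟩
    · exact Or.inl (mul_zero q)
  refine' K s hs := by
    obtain ⟨u, -, rfl⟩ := Finset.mem_image.1 hs
    obtain ⟨a, b, rfl⟩ := Q.idx_surj K u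
    exact ⟨Q.unit K a a, Finset.mem_image.2 ⟨a, Finset.mem_univ _, rfl⟩, by
      rw [unit_next, if_pos rfl]⟩

variable {ξ : H}

/-- The expectation onto the commutant of a block contracts the vectors of self-adjoint elements. -/
lemma norm_expect_le (hz : IsCentralProj M z) (hT : TracialCyclic M ξ) (K : ℕ) {A : H →L[ℂ] H}
    (hA : A ∈ M) (hAs : IsSelfAdjoint A) :
    ‖comb (Q.s K).V (down (Q.s K).V A) ξ‖ ≤ ‖A ξ‖ := by
  have hB := (Q.ok K).block
  set T := comb (Q.s K).V (down (Q.s K).V A) with hTd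
  have hTM : T ∈ M := hB.comb_mem (hB.down_mem hA)
  have hTs : IsSelfAdjoint T :=
    isSelfAdjoint_sum _ fun a _ => (down_sa _ hAs).conjugate' ((Q.s K).V a)
  have hcorner : InCorner (Q.s K).p (down (Q.s K).V A) := by
    refine ⟨hB.left_down A, ?_⟩
    simp only [down, smul_mul_assoc, Finset.sum_mul, mul_assoc, hB.star_left]
  have hcomm : ∀ a b, T * Q.unit K a b = Q.unit K a b * T := fun a b => hB.comb_unit hcorner a b
  let τ : (H →L[ℂ] H) → ℂ := fun x => ⟪ξ, x ξ⟫_ℂ
  have tr : ∀ u ∈ M, ∀ v ∈ M, τ (u * v) = τ (v * u) := fun u hu v hv => hT.trace u hu v hv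
  have key : ∀ a b, τ (T * (Q.unit K a b * A * Q.unit K b a)) = τ (T * Q.unit K b b * A) := by
    intro a b
    rw [← mul_assoc, tr _ (mul_mem hTM (mul_mem (Q.unit_mem K a b) hA)) _ (Q.unit_mem K b a),
      ← mul_assoc, ← mul_assoc, ← hcomm b a, mul_assoc T (Q.unit K b a), unit_mul, if_pos rfl]
  have e : τ (T * T) = τ (T * A) := by
    conv_lhs => arg 1; arg 2; rw [hTd, ← hB.comb_twirl]
    have e2 : τ (T * (((Q.s K).n : ℂ)⁻¹ • ∑ a, ∑ b, Q.unit K a b * A * Q.unit K b a)) =
        ((Q.s K).n : ℂ)⁻¹ * ∑ a : Fin (Q.s K).n, ∑ b, τ (T * Q.unit K b b * A) := by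
      rw [Finset.sum_congr rfl fun a _ => Finset.sum_congr rfl fun b _ => (key a b).symm]
      simp only [τ, mul_smul_comm, Finset.mul_sum, smul_apply, sum_apply, inner_smul_right,
        inner_sum]
    refine e2.trans ?_
    have e3 : ∑ b, τ (T * Q.unit K b b * A) = τ (T * A) := by
      simp only [τ, ← inner_sum, ← sum_apply, ← Finset.sum_mul, ← Finset.mul_sum, unit_sum]
      rw [show T * z = T from (hB.comb_corner hz.1 _).2]
    rw [e3, Finset.sum_const, Finset.card_univ, Fintype.card_fin, nsmul_eq_mul, ← mul_assoc,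
      inv_mul_cancel₀ (Nat.cast_ne_zero.2 (Q.ok K).pos.ne'), one_mul]
  have h1 : ⟪T ξ, T ξ⟫_ℂ = ⟪T ξ, A ξ⟫_ℂ := by
    simp only [inner_proj hTs, ← apply_mul]
    exact e
  rcases eq_or_lt_of_le (norm_nonneg (T ξ)) with h0 | h0
  · rw [← h0]; exact norm_nonneg _
  · have h2 := norm_inner_le_norm (𝕜 := ℂ) (T ξ) (A ξ)
    rw [← h1, inner_self_eq_norm_sq_to_K, norm_pow, RCLike.norm_ofReal, abs_norm, sq] at h2
    exact le_of_mul_le_mul_left h2 h0

/-- A self-adjoint element commuting with the system is central under `z`. -/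
lemma central_of_comm (hz : IsCentralProj M z) (hT : TracialCyclic M ξ) (hyM : ∀ m, y m ∈ M)
    (hys : ∀ m, IsSelfAdjoint (y m))
    (hdense : ∀ x ∈ M, IsSelfAdjoint x → x ξ ∈ closure (Set.range fun m => y m ξ))
    {x : H →L[ℂ] H} (hxM : x ∈ M) (hxs : IsSelfAdjoint x)
    (hx : ∀ K a b, Q.unit K a b * x = x * Q.unit K a b) : InCentre M (x * z) := by
  refine central_of_closure hT (mul_mem hxM hz.2.1) (Metric.mem_closure_iff.2 fun ε hε => ?_)
  obtain ⟨_, ⟨m, rfl⟩, hm⟩ :=
    Metric.mem_closure_iff.1 (hdense x hxM hxs) (ε / 2) (half_pos hε)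
  obtain ⟨K, hK⟩ := Q.err_small m (half_pos hε)
  obtain ⟨c, hcC, hcs, hcm⟩ := (Q.ok K).near m
  have hB := (Q.ok K).block
  refine ⟨(c * z) ξ, ⟨c * z, ⟨mul_mem hcC.1 hz.2.1, fun w hw => by
    rw [mul_assoc, hz.2.2 w hw, ← mul_assoc, hcC.2 w hw, mul_assoc]⟩, rfl⟩, ?_⟩
  have hfix : comb (Q.s K).V (down (Q.s K).V x) = x * z := by
    rw [← hB.comb_twirl]
    have e : ∀ a b, Q.unit K a b * x * Q.unit K b a = x * Q.unit K a a := fun a b => by
      rw [hx, mul_assoc, unit_mul, if_pos rfl]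
    refine (congrArg _ (Finset.sum_congr rfl fun a _ => Finset.sum_congr rfl fun b _ =>
      e a b)).trans ?_
    simp only [Finset.sum_const, Finset.card_univ, Fintype.card_fin, ← Finset.smul_sum,
      ← Finset.mul_sum, unit_sum, ← Nat.cast_smul_eq_nsmul ℂ, smul_smul]
    rw [inv_mul_cancel₀ (Nat.cast_ne_zero.2 (Q.ok K).pos.ne'), one_smul]
  have h1 := Q.norm_expect_le hz hT K (sub_mem hxM (hyM m)) (hxs.sub (hys m))
  have h2 : ‖comb (Q.s K).V (down (Q.s K).V (y m) - c * (Q.s K).p)‖ ≤ (Q.s K).err m :=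
    (hB.norm_comb_le hz.1 ((Q.ok K).sa_sub (hys m) hcC hcs)).trans hcm
  have esub : ∀ A B, comb (Q.s K).V (A - B) = comb (Q.s K).V A - comb (Q.s K).V B := fun A B => by
    simp only [comb, mul_sub, sub_mul, Finset.sum_sub_distrib]
  rw [esub, comb_central hB hcC, hB.comb_one] at h2
  rw [down_sub, esub, hfix] at h1
  rw [dist_eq_norm]
  have e : (x * z) ξ - (c * z) ξ = (x * z - comb (Q.s K).V (down (Q.s K).V (y m))) ξ +
      (comb (Q.s K).V (down (Q.s K).V (y m)) - c * z) ξ := by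
    simp only [sub_apply]; abel
  rw [e]
  refine (norm_add_le _ _).trans_lt ?_
  have h3 := (ContinuousLinearMap.le_opNorm
    (comb (Q.s K).V (down (Q.s K).V (y m)) - c * z) ξ).trans_eq
      (by rw [hT.norm_eq, mul_one])
  rw [sub_apply x] at h1
  rw [dist_eq_norm] at hm
  linarith

end CSeq

/-- The system under the continuous part, with the centre as what commutes with it. -/
theorem exists_continuous_sys [TopologicalSpace.SeparableSpace H] {z : H →L[ℂ] H} {η : H}
    (hT : TracialCyclic M η) (hz : IsCentralProj M z) (hc : ContinuousPart M z) :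
    ∀ cen : ℕ → Finset (H →L[ℂ] H), ∃ S : BSys M cen z,
      ∀ x ∈ M, (∀ k, ∀ s ∈ S.B k, s * x = x * s) → InCentre M (x * z) := by
  intro cen
  have : SecondCountableTopology H := UniformSpace.secondCountable_of_separable H
  let V : Set H := {v | ∃ x ∈ M, IsSelfAdjoint x ∧ v = x η}
  have : Nonempty V := ⟨⟨_, 0, zero_mem M, .zero _, rfl⟩⟩
  have key : ∀ i, ∃ x ∈ M, IsSelfAdjoint x ∧ (TopologicalSpace.denseSeq V i : H) = x η :=
    fun i => (TopologicalSpace.denseSeq V i).2
  choose y hyM hys hye using key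
  have hdense : ∀ x ∈ M, IsSelfAdjoint x → x η ∈ closure (Set.range fun m => y m η) :=
    fun x hx hxs => by
      have h' := map_mem_closure (continuous_subtype_val (p := fun v => v ∈ V))
        (TopologicalSpace.denseRange_denseSeq V ⟨x η, x, hx, hxs, rfl⟩)
        (t := Set.range fun m => y m η) (by
          rintro _ ⟨i, rfl⟩
          exact ⟨i, (hye i).symm⟩)
      exact h'
  obtain ⟨Q⟩ := exists_cseq hz hc hyM hys
  refine ⟨Q.sys hz cen, fun x hx hcomm => ?_⟩
  have hu : ∀ K a b, Q.unit K a b * x = x * Q.unit K a b := fun K a b =>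
    hcomm K _ (by classical exact Finset.mem_image.2 ⟨(a, b), Finset.mem_univ _, rfl⟩)
  have hu' : ∀ K a b, Q.unit K a b * star x = star x * Q.unit K a b := fun K a b => by
    have := congrArg star (hu K b a)
    rw [star_mul, star_mul, CSeq.star_unit] at this
    exact this.symm
  have sc : ∀ (l : ℂ) {d : H →L[ℂ] H}, InCentre M d → InCentre M (l • d) := fun l d hd =>
    ⟨smul_mem' l hd.1, fun x hx => by rw [smul_mul_assoc, mul_smul_comm, hd.2 x hx]⟩
  have h1 := Q.central_of_comm hz hT hyM hys hdense (add_mem hx (star_mem hx))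
    (IsSelfAdjoint.add_star_self x) fun K a b => by rw [mul_add, add_mul, hu, hu']
  have h2 := Q.central_of_comm hz hT hyM hys hdense
    (smul_mem' Complex.I (sub_mem hx (star_mem hx)))
    (by
      rw [IsSelfAdjoint, star_smul, star_sub, star_star, Complex.star_def, Complex.conj_I,
        neg_smul, ← smul_neg, neg_sub]) fun K a b => by
      rw [mul_smul_comm, smul_mul_assoc, mul_sub, sub_mul, hu, hu']
  have h3 := sc (1 / 2 : ℂ) h1
  have h4 := sc (-(Complex.I / 2)) h2
  have e : x * z = (1 / 2 : ℂ) • ((x + star x) * z) +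
      (-(Complex.I / 2)) • ((Complex.I • (x - star x)) * z) := by
    rw [smul_mul_assoc, smul_smul, show -(Complex.I / 2) * Complex.I = 1 / 2 by
      rw [neg_mul, div_mul_eq_mul_div, Complex.I_mul_I]; ring, add_mul, sub_mul]
    module
  rw [e]
  exact ⟨add_mem h3.1 h4.1, fun w hw => by rw [add_mul, mul_add, h3.2 w hw, h4.2 w hw]⟩

end Vale.Agent.P096.Full.Reduce.Grp
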