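import Vale.Agent.P096.Full.Reduce.Groups.Systems
import Vale.Agent.P104.Discrete.Family

/-!
P096, groups: under the discrete part, the products of a covering family of partial isometries into
abelian projections give a system; what commutes with it is central there.
-/

open scoped InnerProductSpace
open Vale.Agent.P104 Vale.Agent.P104.Continuous Vale.Agent.P104.Discrete

namespace Vale.Agent.P096.Full.Reduce.Grp

universe u

variable {H : Type u} [NormedAddCommGroup H] [InnerProductSpace ℂ H] [CompleteSpace H]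
  {M : VonNeumannAlgebra H}

/-- Partial isometries with orthogonal ranges filling `e`, from disconnected abelian projections. -/
structure Cover (M : VonNeumannAlgebra H) (e : H →L[ℂ] H) where
  w : ℕ → (H →L[ℂ] H)
  src : ℕ → (H →L[ℂ] H)
  mem : ∀ i, w i ∈ M
  under : ∀ i, e * w i = w i
  pisom : ∀ i, w i * star (w i) * w i = w i
  abel : ∀ i, IsAbelianProj M (src i)
  source : ∀ i, w i * src i = w i
  disc : ∀ i j, src i ≠ src j → ∀ x ∈ M, src i * x * src j = 0
  ortho : ∀ i j, w i ≠ w j → star (w i) * w j = 0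
  fill : ∀ A : H →L[ℂ] H, (∀ i, A * w i = 0) → A * e = 0

omit [CompleteSpace H] in
lemma countable_of_orth [TopologicalSpace.SeparableSpace H] {s : Set H}
    (hn : ∀ v ∈ s, ‖v‖ = 1) (ho : ∀ v ∈ s, ∀ v' ∈ s, v ≠ v' → ⟪v, v'⟫_ℂ = 0) : s.Countable := by
  refine Set.PairwiseDisjoint.countable_of_isOpen (s := fun v => Metric.ball v (1 / 2))
    (fun v hv v' hv' hne => ?_) (fun _ _ => Metric.isOpen_ball)
    fun v _ => ⟨v, Metric.mem_ball_self (by norm_num)⟩
  refine Metric.ball_disjoint_ball ?_
  rw [dist_eq_norm]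
  have h := norm_sub_sq (𝕜 := ℂ) v v'
  rw [ho v hv v' hv' hne, hn v hv, hn v' hv'] at h
  simp at h
  nlinarith [norm_nonneg (v - v')]

theorem exists_cover [TopologicalSpace.SeparableSpace H] {e : H →L[ℂ] H}
    (he : IsCentralProj M e) (hd : DiscretePart M e) : Nonempty (Cover M e) := by
  classical
  obtain ⟨E, W, hA, hI, hQ⟩ := exists_family M e he hd
  have hWc : W.Countable := by
    have key : ∀ w : {w : H →L[ℂ] H // w ∈ W ∧ w ≠ 0}, ∃ v : H, ‖v‖ = 1 ∧ ∃ x, v = w.1 x := by
      rintro ⟨w, _, h0⟩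
      obtain ⟨x, hx⟩ : ∃ x, w x ≠ 0 := by
        by_contra hc
        push Not at hc
        exact h0 (ContinuousLinearMap.ext fun x => by simpa using hc x)
      refine ⟨((‖w x‖⁻¹ : ℝ) : ℂ) • w x, ?_, ((‖w x‖⁻¹ : ℝ) : ℂ) • x, (map_smul w _ x).symm⟩
      rw [norm_smul, Complex.norm_real, norm_inv, norm_norm,
        inv_mul_cancel₀ (norm_ne_zero_iff.2 hx)]
    choose v hv1 xs hvx using key
    have ho : ∀ a b, a.1 ≠ b.1 → ⟪v a, v b⟫_ℂ = 0 := fun a b h => by
      rw [hvx a, hvx b, ← ContinuousLinearMap.adjoint_inner_right,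
        ← ContinuousLinearMap.star_eq_adjoint, ← apply_mul, hI.ortho _ a.2.1 _ b.2.1 h,
        zero_apply, inner_zero_right]
    have hinj : Function.Injective v := fun a b h => by
      by_contra hne
      have h0 := ho a b fun e => hne (Subtype.ext e)
      rw [h, inner_self_eq_zero] at h0
      have := hv1 b
      rw [h0, norm_zero] at this
      norm_num at this
    have hr : (Set.range v).Countable := countable_of_orth
      (fun u ⟨a, ha⟩ => ha ▸ hv1 a)
      (fun u ⟨a, ha⟩ u' ⟨b, hb⟩ hne => by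
        subst ha; subst hb; exact ho a b fun e => hne (congrArg v (Subtype.ext e)))
    have : Countable {w : H →L[ℂ] H // w ∈ W ∧ w ≠ 0} :=
      haveI := hr.to_subtype
      (Set.rangeFactorization_injective.2 hinj).countable
    have hc0 : {w : H →L[ℂ] H | w ∈ W ∧ w ≠ 0}.Countable := Set.countable_coe_iff.1 this
    refine (hc0.insert 0).mono fun w hw => ?_
    by_cases h : w = 0
    · exact Or.inl h
    · exact Or.inr ⟨hw, h⟩
  obtain ⟨f, hf⟩ := ((hWc.insert 0).exists_eq_range (Set.insert_nonempty _ _))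
  have hfW : ∀ i, f i = 0 ∨ f i ∈ W := fun i => by
    have : f i ∈ insert 0 W := hf ▸ Set.mem_range_self i
    exact this
  have hsrc : ∀ i, ∃ s, (s = 0 ∨ s ∈ E) ∧ f i * s = f i := fun i => by
    rcases hfW i with h | h
    · exact ⟨0, Or.inl rfl, by rw [h, mul_zero]⟩
    · obtain ⟨s, hs, hs'⟩ := hI.source _ h
      exact ⟨s, Or.inr hs, hs'⟩
  choose s hs hs' using hsrc
  refine ⟨⟨f, s, fun i => ?_, fun i => ?_, fun i => ?_, fun i => ?_, hs', fun i j hne x hx => ?_,
    fun i j hne => ?_, fun A hA0 => ?_⟩⟩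
  · rcases hfW i with h | h
    · rw [h]; exact zero_mem M
    · exact hI.mem _ h
  · rcases hfW i with h | h
    · rw [h, mul_zero]
    · exact hI.under _ h
  · rcases hfW i with h | h
    · simp [h]
    · exact hI.pisom _ h
  · rcases hs i with h | h
    · rw [h]; exact ⟨.zero _, zero_mem M, fun x _ y _ => by simp⟩
    · exact hA.abelian _ h
  · rcases hs i with h | h
    · simp [h]
    · rcases hs j with h' | h'
      · simp [h']
      · exact hA.disc _ h _ h' hne x hx
  · rcases hfW i with h | h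
    · simp [h]
    · rcases hfW j with h' | h'
      · simp [h']
      · exact hI.ortho _ h _ h' hne
  · rw [← hQ]
    refine mul_spanProj_of_zero A fun v hv => ?_
    obtain ⟨w, hw, η, rfl⟩ := hv
    have : w ∈ insert 0 W := Set.mem_insert_of_mem _ hw
    rw [hf] at this
    obtain ⟨i, rfl⟩ := this
    exact DFunLike.congr_fun (hA0 i) η

namespace Cover

variable {e : H →L[ℂ] H} (C : Cover M e)

lemma init_proj (i : ℕ) : IsStarProjection (star (C.w i) * C.w i) :=
  ⟨by show _ * _ = _; rw [mul_assoc, ← mul_assoc (C.w i), C.pisom],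
    IsSelfAdjoint.star_mul_self _⟩

lemma final_proj (i : ℕ) : IsStarProjection (C.w i * star (C.w i)) := pi_star (C.init_proj i)

lemma right (i : ℕ) : C.w i * (star (C.w i) * C.w i) = C.w i := pi_mul_self (C.init_proj i)

lemma src_star (i : ℕ) : C.src i * star (C.w i) = star (C.w i) := by
  simpa [(C.abel i).1.isSelfAdjoint.star_eq] using congrArg star (C.source i)

lemma init_mem (i : ℕ) : star (C.w i) * C.w i ∈ M := mul_mem (star_mem (C.mem i)) (C.mem i)

lemma src_init (i : ℕ) :
    C.src i * (star (C.w i) * C.w i) = star (C.w i) * C.w i ∧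
      star (C.w i) * C.w i * C.src i = star (C.w i) * C.w i :=
  ⟨by rw [← mul_assoc, C.src_star], by rw [mul_assoc, C.source]⟩

/-- The central cover of the initial projection. -/
noncomputable def cov (i : ℕ) : H →L[ℂ] H := ccv M (star (C.w i) * C.w i)

lemma cov_central (i : ℕ) : IsCentralProj M (C.cov i) :=
  ⟨cl_isProj _, ccv_central (C.init_mem i)⟩

/-- Below its cover, the initial projection is the whole source. -/
lemma src_cov (i : ℕ) : C.src i * C.cov i = star (C.w i) * C.w i := by
  have hf := C.init_mem i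
  obtain ⟨h1, h2⟩ := C.src_init i
  set f := star (C.w i) * C.w i with hfd
  set s := C.src i with hsd
  have hfc : ccv M f * f = f := ccv_mul f
  have hfc' : f * C.cov i = f := by
    rw [cov, ← (ccv_central hf).2 f hf, hfc]
  have h0 : (s - f) * ccv M f = 0 := by
    refine mul_ccv_eq_zero fun x hx => ?_
    have hc := (C.abel i).2.2 x hx f hf
    rw [show s * f * s = f by rw [h1, h2]] at hc
    calc (s - f) * x * f = s * x * (s * f) - f * s * x * (s * f) := by
          rw [h1, sub_mul, sub_mul, h2]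
      _ = s * x * s * f - f * (s * x * s) * f := by simp only [mul_assoc]
      _ = 0 := by
        rw [← hc, mul_assoc (s * x * s) f f, (C.init_proj i).isIdempotentElem.eq, sub_self]
  rw [← hfd] at *
  rw [sub_mul, sub_eq_zero] at h0
  exact h0.trans hfc'

lemma dec_init {i : ℕ} {q : H →L[ℂ] H} (hq : IsCentralProj M q)
    (hdec : q * C.cov i = q ∨ q * C.cov i = 0) :
    q * C.w i = 0 ∨ q * (star (C.w i) * C.w i) = q * C.src i := by
  rcases hdec with h | h
  · right
    rw [← C.src_cov i, ← mul_assoc, hq.2.2 _ (C.abel i).2.1, mul_assoc, h]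
  · left
    have hc := C.cov_central i
    have e1 : C.w i = C.w i * C.cov i := by
      conv_lhs => rw [← C.right i, ← ccv_mul (M := M) (star (C.w i) * C.w i)]
      rw [← cov, hc.2.2 _ (C.init_mem i), ← mul_assoc, C.right]
    rw [e1, ← hc.2.2 _ (C.mem i), ← mul_assoc, h, zero_mul]

lemma disc_mul (i j : ℕ) (h : C.src i ≠ C.src j) : C.w i * star (C.w j) = 0 := by
  rw [← C.source i, ← C.src_star j, mul_assoc, ← mul_assoc (C.src i),
    show C.src i * C.src j = 0 by simpa using C.disc i j h 1 (one_mem M), zero_mul, mul_zero]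

open Classical in
/-- The first partial isometries. -/
noncomputable def F (k : ℕ) : Finset (H →L[ℂ] H) := (Finset.range (k + 1)).image C.w

open Classical in
/-- The rest of `e`. -/
noncomputable def rest (k : ℕ) : H →L[ℂ] H := e - ∑ a ∈ C.F k, a * star a

lemma mem_F {k : ℕ} {a : H →L[ℂ] H} (ha : a ∈ C.F k) : ∃ i ≤ k, a = C.w i := by
  classical
  obtain ⟨i, hi, rfl⟩ := Finset.mem_image.1 ha
  exact ⟨i, Nat.lt_succ_iff.1 (Finset.mem_range.1 hi), rfl⟩

lemma F_mono (k : ℕ) {a : H →L[ℂ] H} (ha : a ∈ C.F k) : a ∈ C.F (k + 1) := by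
  classical
  obtain ⟨i, hi, rfl⟩ := C.mem_F ha
  exact Finset.mem_image.2 ⟨i, Finset.mem_range.2 (by omega), rfl⟩

lemma rest_mul {k : ℕ} (i : ℕ) :
    (C.w i ∈ C.F k → C.rest k * C.w i = 0) ∧ (C.w i ∉ C.F k → C.rest k * C.w i = C.w i) := by
  classical
  rw [rest, sub_mul, C.under, Finset.sum_mul]
  refine ⟨fun h => ?_, fun h => ?_⟩
  · rw [Finset.sum_eq_single (C.w i), C.pisom, sub_self]
    · intro a ha hne
      obtain ⟨j, -, rfl⟩ := C.mem_F ha
      rw [mul_assoc, C.ortho j i hne, mul_zero]
    · exact fun h' => absurd h h'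
  · rw [Finset.sum_eq_zero, sub_zero]
    intro a ha
    obtain ⟨j, -, rfl⟩ := C.mem_F ha
    rw [mul_assoc, C.ortho j i (fun e => h (e ▸ ha)), mul_zero]

variable (he : IsCentralProj M e)
include he

lemma rest_mem (k : ℕ) : C.rest k ∈ M := by
  refine sub_mem he.2.1 (sum_mem fun a ha => ?_)
  obtain ⟨i, -, rfl⟩ := C.mem_F ha
  exact mul_mem (C.mem i) (star_mem (C.mem i))

lemma rest_under (k : ℕ) : e * C.rest k = C.rest k ∧ C.rest k * e = C.rest k := by
  have h : e * C.rest k = C.rest k := by
    rw [rest, mul_sub, he.1.isIdempotentElem.eq, Finset.mul_sum]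
    refine congrArg _ (Finset.sum_congr rfl fun a ha => ?_)
    obtain ⟨i, -, rfl⟩ := C.mem_F ha
    rw [← mul_assoc, C.under]
  exact ⟨h, by rw [← he.2.2 _ (C.rest_mem he k), h]⟩

lemma rest_star (k : ℕ) : star (C.rest k) = C.rest k := by
  rw [rest, star_sub, he.1.isSelfAdjoint.star_eq, star_sum]
  simp only [star_mul, star_star]

lemma star_mul_rest {k : ℕ} (i : ℕ) (h : C.w i ∈ C.F k) :
    star (C.w i) * C.rest k = 0 := by
  simpa [C.rest_star he k] using congrArg star ((C.rest_mul i).1 h)

lemma rest_rest {m k : ℕ} (h : ∀ a ∈ C.F m, a ∈ C.F k) :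
    C.rest m * C.rest k = C.rest k := by
  nth_rw 1 [rest]
  rw [sub_mul, (C.rest_under he k).1, Finset.sum_mul, Finset.sum_eq_zero, sub_zero]
  intro a ha
  obtain ⟨i, hi, rfl⟩ := C.mem_F ha
  rw [mul_assoc, C.star_mul_rest he i (h _ ha), mul_zero]

lemma rest_proj (k : ℕ) : IsStarProjection (C.rest k) :=
  ⟨C.rest_rest he fun _ h => h, C.rest_star he k⟩

open Classical in
omit he in
/-- The elements of the `k`th system. -/
noncomputable def elts (k : ℕ) : Finset (H →L[ℂ] H) :=
  insert (C.rest k) ((C.F k ×ˢ C.F k).image fun p => p.1 * star p.2)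

lemma mul_elts {m k : ℕ} (hsub : ∀ a ∈ C.F m, a ∈ C.F k) {q : H →L[ℂ] H}
    (hq : IsCentralProj M q) (hdec : ∀ i ≤ k, q * C.cov i = q ∨ q * C.cov i = 0)
    {s t : H →L[ℂ] H} (hs : s ∈ C.elts m) (ht : t ∈ C.elts k) :
    q * (s * t) = 0 ∨ ∃ u ∈ C.elts k, q * (s * t) = q * u := by
  classical
  rcases Finset.mem_insert.1 hs with rfl | hs <;> rcases Finset.mem_insert.1 ht with rfl | ht
  · exact Or.inr ⟨_, Finset.mem_insert_self _ _, by rw [C.rest_rest he hsub]⟩
  · obtain ⟨⟨c, d⟩, hcd, rfl⟩ := Finset.mem_image.1 ht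
    obtain ⟨i, -, rfl⟩ := C.mem_F (Finset.mem_product.1 hcd).1
    by_cases h : C.w i ∈ C.F m
    · refine Or.inl ?_
      dsimp only
      rw [← mul_assoc (C.rest m), (C.rest_mul i).1 h, zero_mul, mul_zero]
    · exact Or.inr ⟨_, Finset.mem_insert_of_mem (Finset.mem_image.2 ⟨_, hcd, rfl⟩),
        by dsimp only; rw [← mul_assoc (C.rest m), (C.rest_mul i).2 h]⟩
  · obtain ⟨⟨a, b⟩, hab, rfl⟩ := Finset.mem_image.1 hs
    have hb := (Finset.mem_product.1 hab).2
    obtain ⟨j, -, rfl⟩ := C.mem_F hb
    exact Or.inl (by rw [mul_assoc, C.star_mul_rest he j (hsub _ hb), mul_zero, mul_zero])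
  · obtain ⟨⟨a, b⟩, hab, rfl⟩ := Finset.mem_image.1 hs
    obtain ⟨⟨c, d⟩, hcd, rfl⟩ := Finset.mem_image.1 ht
    obtain ⟨ha, hb⟩ := Finset.mem_product.1 hab
    obtain ⟨hc, hd⟩ := Finset.mem_product.1 hcd
    by_cases hbc : b = c
    swap
    · obtain ⟨j, -, rfl⟩ := C.mem_F hb
      obtain ⟨l, -, rfl⟩ := C.mem_F hc
      left
      rw [mul_assoc, ← mul_assoc (star (C.w j)), C.ortho j l hbc, zero_mul, mul_zero, mul_zero]
    subst hbc
    obtain ⟨i, -, rfl⟩ := C.mem_F ha
    obtain ⟨j, hj, rfl⟩ := C.mem_F hc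
    by_cases hsrc : C.src i = C.src j
    swap
    · left
      rw [C.disc_mul i j hsrc, zero_mul, mul_zero]
    rcases C.dec_init hq (hdec j hj) with h | h
    · left
      calc q * (C.w i * star (C.w j) * (C.w j * star d))
          = q * (C.w i * star (C.w j)) * C.w j * star d := by simp only [mul_assoc]
        _ = C.w i * star (C.w j) * (q * C.w j) * star d := by
          rw [hq.2.2 _ (mul_mem (C.mem i) (star_mem (C.mem j)))]; simp only [mul_assoc]
        _ = 0 := by rw [h, mul_zero, zero_mul]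
    · refine Or.inr ⟨C.w i * star d, Finset.mem_insert_of_mem (Finset.mem_image.2
        ⟨(C.w i, d), Finset.mem_product.2 ⟨hsub _ ha, hd⟩, rfl⟩), ?_⟩
      calc q * (C.w i * star (C.w j) * (C.w j * star d))
          = q * C.w i * (star (C.w j) * C.w j) * star d := by simp only [mul_assoc]
        _ = C.w i * (q * (star (C.w j) * C.w j)) * star d := by
          rw [hq.2.2 _ (C.mem i)]; simp only [mul_assoc]
        _ = C.w i * q * C.src j * star d := by rw [h]; simp only [mul_assoc]
        _ = q * (C.w i * C.src j * star d) := by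
          rw [← hq.2.2 _ (C.mem i)]; simp only [mul_assoc]
        _ = _ := by rw [← hsrc, C.source]

open Classical in
/-- The system of the family. -/
noncomputable def sys {cen : ℕ → Finset (H →L[ℂ] H)} (hP : ∀ k, IsPartition M (cen k))
    (hdec : ∀ k, ∀ q ∈ cen k, ∀ i ≤ k, q * C.cov i = q ∨ q * C.cov i = 0) :
    BSys M cen e where
  B := C.elts
  D k := insert (C.rest k) ((C.F k).image fun a => a * star a)
  mem k s hs := by
    rcases Finset.mem_insert.1 hs with rfl | hs
    · exact C.rest_mem he k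
    · obtain ⟨⟨a, b⟩, hab, rfl⟩ := Finset.mem_image.1 hs
      obtain ⟨ha, hb⟩ := Finset.mem_product.1 hab
      obtain ⟨i, -, rfl⟩ := C.mem_F ha
      obtain ⟨j, -, rfl⟩ := C.mem_F hb
      exact mul_mem (C.mem i) (star_mem (C.mem j))
  supp k s hs := by
    rcases Finset.mem_insert.1 hs with rfl | hs
    · exact (C.rest_under he k).1
    · obtain ⟨⟨a, b⟩, hab, rfl⟩ := Finset.mem_image.1 hs
      obtain ⟨i, -, rfl⟩ := C.mem_F (Finset.mem_product.1 hab).1
      rw [← mul_assoc, C.under]
  sub k s hs := by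
    rcases Finset.mem_insert.1 hs with rfl | hs
    · exact Finset.mem_insert_self _ _
    · obtain ⟨a, ha, rfl⟩ := Finset.mem_image.1 hs
      exact Finset.mem_insert_of_mem
        (Finset.mem_image.2 ⟨(a, a), Finset.mem_product.2 ⟨ha, ha⟩, rfl⟩)
  proj k s hs := by
    rcases Finset.mem_insert.1 hs with rfl | hs
    · exact C.rest_proj he k
    · obtain ⟨a, ha, rfl⟩ := Finset.mem_image.1 hs
      obtain ⟨i, -, rfl⟩ := C.mem_F ha
      exact C.final_proj i
  orth k s hs t ht hne := by
    have key : ∀ a ∈ C.F k, a * star a * C.rest k = 0 ∧ C.rest k * (a * star a) = 0 :=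
      fun a ha => by
        obtain ⟨i, -, rfl⟩ := C.mem_F ha
        exact ⟨by rw [mul_assoc, C.star_mul_rest he i ha, mul_zero],
          by rw [← mul_assoc, (C.rest_mul i).1 ha, zero_mul]⟩
    rcases Finset.mem_insert.1 hs with rfl | hs <;> rcases Finset.mem_insert.1 ht with rfl | ht
    · exact absurd rfl hne
    · obtain ⟨b, hb, rfl⟩ := Finset.mem_image.1 ht
      exact (key b hb).2
    · obtain ⟨a, ha, rfl⟩ := Finset.mem_image.1 hs
      exact (key a ha).1
    · obtain ⟨a, ha, rfl⟩ := Finset.mem_image.1 hs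
      obtain ⟨b, hb, rfl⟩ := Finset.mem_image.1 ht
      obtain ⟨i, -, rfl⟩ := C.mem_F ha
      obtain ⟨j, -, rfl⟩ := C.mem_F hb
      rw [mul_assoc, ← mul_assoc (star (C.w i)), C.ortho i j (fun h => hne (by rw [h])), zero_mul,
        mul_zero]
  sum k := by
    have e1 : ∑ d ∈ (C.F k).image (fun a => a * star a), d = ∑ a ∈ C.F k, a * star a := by
      refine sum_image_orth _ _ (fun a ha => ?_) fun a ha b hb hne => ?_
      · obtain ⟨i, -, rfl⟩ := C.mem_F ha
        exact (C.final_proj i).isIdempotentElem.eq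
      · obtain ⟨i, -, rfl⟩ := C.mem_F ha
        obtain ⟨j, -, rfl⟩ := C.mem_F hb
        rw [mul_assoc, ← mul_assoc (star (C.w i)), C.ortho i j hne, zero_mul, mul_zero]
    by_cases h : C.rest k ∈ (C.F k).image fun a => a * star a
    · have h0 : C.rest k = 0 := by
        obtain ⟨a, ha, hae⟩ := Finset.mem_image.1 h
        obtain ⟨i, -, rfl⟩ := C.mem_F ha
        rw [← (C.rest_proj he k).isIdempotentElem.eq]
        nth_rw 2 [← hae]
        rw [← mul_assoc, (C.rest_mul i).1 ha, zero_mul]
      rw [Finset.insert_eq_of_mem h, e1]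
      exact (sub_eq_zero.1 h0).symm
    · rw [Finset.sum_insert h, e1, rest, sub_add_cancel]
  star' k s hs := by
    rcases Finset.mem_insert.1 hs with rfl | hs
    · rw [C.rest_star he]; exact Finset.mem_insert_self _ _
    · obtain ⟨⟨a, b⟩, hab, rfl⟩ := Finset.mem_image.1 hs
      obtain ⟨ha, hb⟩ := Finset.mem_product.1 hab
      refine Finset.mem_insert_of_mem
        (Finset.mem_image.2 ⟨(b, a), Finset.mem_product.2 ⟨hb, ha⟩, ?_⟩)
      simp
  off k s hs := by
    rcases Finset.mem_insert.1 hs with rfl | hs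
    · exact Or.inl (Finset.mem_insert_self _ _)
    · obtain ⟨⟨a, b⟩, hab, rfl⟩ := Finset.mem_image.1 hs
      obtain ⟨ha, hb⟩ := Finset.mem_product.1 hab
      by_cases h : a = b
      · subst h
        exact Or.inl (Finset.mem_insert_of_mem (Finset.mem_image.2 ⟨a, ha, rfl⟩))
      · obtain ⟨i, -, rfl⟩ := C.mem_F ha
        obtain ⟨j, -, rfl⟩ := C.mem_F hb
        right
        rw [mul_assoc, ← mul_assoc (star (C.w j)), C.ortho j i (Ne.symm h), zero_mul, mul_zero]
  init k q hq s hs := by
    rcases Finset.mem_insert.1 hs with rfl | hs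
    · refine Or.inr ⟨C.rest k, Finset.mem_insert_self _ _, ?_⟩
      rw [C.rest_star he, (C.rest_proj he k).isIdempotentElem.eq]
    · obtain ⟨⟨a, b⟩, hab, rfl⟩ := Finset.mem_image.1 hs
      obtain ⟨ha, hb⟩ := Finset.mem_product.1 hab
      have hqc := (hP k).cproj q hq
      obtain ⟨i, hi, rfl⟩ := C.mem_F ha
      obtain ⟨j, hj, rfl⟩ := C.mem_F hb
      by_cases hsrc : C.src i = C.src j
      · rcases C.dec_init hqc (hdec k q hq i hi) with h | h
        · exact Or.inl (by rw [← mul_assoc, h, zero_mul])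
        · refine Or.inr ⟨C.w j * star (C.w j),
            Finset.mem_insert_of_mem (Finset.mem_image.2 ⟨_, hb, rfl⟩), ?_⟩
          calc q * (star (C.w i * star (C.w j)) * (C.w i * star (C.w j)))
              = q * C.w j * (star (C.w i) * C.w i) * star (C.w j) := by
                simp only [star_mul, star_star, mul_assoc]
            _ = C.w j * (q * (star (C.w i) * C.w i)) * star (C.w j) := by
                rw [hqc.2.2 _ (C.mem j)]; simp only [mul_assoc]
            _ = q * (C.w j * C.src j * star (C.w j)) := by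
                rw [h, hsrc]
                conv_lhs => rw [← mul_assoc (C.w j), ← hqc.2.2 _ (C.mem j)]
                simp only [mul_assoc]
            _ = _ := by rw [C.source]
      · exact Or.inl (by rw [C.disc_mul i j hsrc, mul_zero])
  mul k q hq s hs t ht := C.mul_elts he (fun _ h => h) ((hP k).cproj q hq) (hdec k q hq) hs ht
  mixed k q hq s hs t ht :=
    C.mul_elts he (fun _ h => C.F_mono k h) ((hP (k + 1)).cproj q hq) (hdec (k + 1) q hq) hs ht
  refine' k s hs := by
    rcases Finset.mem_insert.1 hs with rfl | hs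
    · exact ⟨C.rest k, Finset.mem_insert_self _ _, C.rest_rest he fun _ h => C.F_mono k h⟩
    · obtain ⟨a, ha, rfl⟩ := Finset.mem_image.1 hs
      obtain ⟨i, -, rfl⟩ := C.mem_F ha
      by_cases h : C.w i ∈ C.F k
      · exact ⟨_, Finset.mem_insert_of_mem (Finset.mem_image.2 ⟨_, h, rfl⟩),
          (C.final_proj i).isIdempotentElem.eq⟩
      · exact ⟨C.rest k, Finset.mem_insert_self _ _, by rw [← mul_assoc, (C.rest_mul i).2 h]⟩

omit he in
lemma elts_mem {k i j : ℕ} (hi : i ≤ k) (hj : j ≤ k) :
    C.w i * star (C.w j) ∈ C.elts k := by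
  classical
  exact Finset.mem_insert_of_mem (Finset.mem_image.2 ⟨(C.w i, C.w j), Finset.mem_product.2
    ⟨Finset.mem_image.2 ⟨i, Finset.mem_range.2 (by omega), rfl⟩,
      Finset.mem_image.2 ⟨j, Finset.mem_range.2 (by omega), rfl⟩⟩, rfl⟩)

/-- An element commuting with the products of the family is central under `e`. -/
lemma central_of_comm {x : H →L[ℂ] H} (hx : x ∈ M)
    (hcomm : ∀ i j, C.w i * star (C.w j) * x = x * (C.w i * star (C.w j))) :
    InCentre M (x * e) := by
  refine ⟨mul_mem hx he.2.1, fun m hm => ?_⟩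
  let y : ℕ → (H →L[ℂ] H) := fun i => star (C.w i) * x * C.w i
  have hr : ∀ i, x * C.w i = C.w i * y i := fun i => by
    calc x * C.w i = x * (C.w i * star (C.w i)) * C.w i := by rw [mul_assoc x, C.pisom]
      _ = _ := by rw [← hcomm i i]; simp only [y, mul_assoc]
  have hl : ∀ i, star (C.w i) * x = y i * star (C.w i) := fun i => by
    have hp : star (C.w i) * (C.w i * star (C.w i)) = star (C.w i) := by
      simpa [mul_assoc] using congrArg star (C.pisom i)
    calc star (C.w i) * x = star (C.w i) * (C.w i * star (C.w i) * x) := by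
          rw [← mul_assoc, hp]
      _ = _ := by rw [hcomm]; simp only [y, mul_assoc]
  have key : ∀ i j, star (C.w i) * (x * m - m * x) * C.w j = 0 := by
    intro i j
    set n := star (C.w i) * m * C.w j with hn
    have e1 : star (C.w i) * (x * m - m * x) * C.w j = y i * n - n * y j := by
      rw [mul_sub, sub_mul, ← mul_assoc, hl, ← mul_assoc, mul_assoc _ x, hr, hn]
      simp only [mul_assoc]
    rw [e1]
    have hsl : ∀ i (v : H →L[ℂ] H), C.src i * (star (C.w i) * v) = star (C.w i) * v :=
      fun i v => by rw [← mul_assoc, C.src_star]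
    by_cases hsrc : C.src i = C.src j
    swap
    · have h0 : n = 0 := by
        calc n = C.src i * n * C.src j := by
              rw [hn, mul_assoc, hsl, mul_assoc, mul_assoc m, C.source]
          _ = 0 := C.disc i j hsrc n
              (mul_mem (mul_mem (star_mem (C.mem i)) hm) (C.mem j))
      rw [h0, mul_zero, zero_mul, sub_zero]
    set ε := C.src i with hε
    have hcm : ∀ a ∈ M, ∀ b ∈ M, ε * a * ε = a → ε * b * ε = b → a * b = b * a :=
      fun a ha b hb h1 h2 => by
        have := (C.abel i).2.2 a ha b hb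
        rwa [h1, h2] at this
    have hcor : ∀ a b : ℕ, C.src a = ε → C.src b = ε → ∀ v : H →L[ℂ] H,
        ε * (star (C.w a) * v * C.w b) * ε = star (C.w a) * v * C.w b := fun a b h1 h2 v => by
      rw [mul_assoc (star (C.w a)) v, ← h1, hsl, h1, ← h2, mul_assoc, mul_assoc v, C.source]
    have hyM : ∀ a, y a ∈ M := fun a => mul_mem (mul_mem (star_mem (C.mem a)) hx) (C.mem a)
    have hnM : n ∈ M := mul_mem (mul_mem (star_mem (C.mem i)) hm) (C.mem j)
    have c1 : n * y j = y j * n :=
      hcm n hnM _ (hyM j) (hcor i j rfl hsrc.symm m) (hcor j j hsrc.symm hsrc.symm x)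
    have c2 : y j * (star (C.w i) * C.w i) = star (C.w i) * C.w i * y j :=
      hcm _ (hyM j) _ (C.init_mem i) (hcor j j hsrc.symm hsrc.symm x)
        (by simpa using hcor i i rfl rfl 1)
    have c3 : y i * (star (C.w j) * C.w j) = star (C.w i) * C.w i * y j := by
      calc y i * (star (C.w j) * C.w j)
          = star (C.w i) * (x * (C.w i * star (C.w j))) * C.w j := by simp only [y, mul_assoc]
        _ = star (C.w i) * (C.w i * star (C.w j) * x) * C.w j := by rw [hcomm]
        _ = _ := by simp only [y, mul_assoc]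
    have c4 : n * (star (C.w j) * C.w j) = n := by rw [hn, mul_assoc, C.right]
    have c5 : star (C.w i) * C.w i * n = n := by
      have hp : star (C.w i) * C.w i * star (C.w i) = star (C.w i) := by
        simpa [mul_assoc] using congrArg star (C.pisom i)
      rw [hn, ← mul_assoc, ← mul_assoc, hp]
    have c6 : star (C.w j) * C.w j * n = n * (star (C.w j) * C.w j) :=
      hcm _ (C.init_mem j) n hnM (by simpa using hcor j j hsrc.symm hsrc.symm 1)
        (hcor i j rfl hsrc.symm m)
    rw [sub_eq_zero]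
    calc y i * n = y i * (star (C.w j) * C.w j * n) := by rw [c6, c4]
      _ = y j * (star (C.w i) * C.w i * n) := by rw [← mul_assoc, c3, ← c2, mul_assoc]
      _ = n * y j := by rw [c5, c1]
  have h1 : ∀ j, (x * m - m * x) * C.w j = 0 := fun j => by
    set v := (x * m - m * x) * C.w j with hv
    have h0 : star v * e = 0 := C.fill _ fun i => by
      have := congrArg star (key i j)
      simpa [hv, star_mul, mul_assoc] using this
    have h2 : e * v = 0 := by simpa [he.1.isSelfAdjoint.star_eq] using congrArg star h0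
    rw [← h2, hv, ← mul_assoc, he.2.2 _ (sub_mem (mul_mem hx hm) (mul_mem hm hx)), mul_assoc,
      C.under]
  have h3 := C.fill _ h1
  rw [sub_mul, sub_eq_zero] at h3
  rw [mul_assoc, he.2.2 m hm, ← mul_assoc, h3, mul_assoc]

end Cover

end Vale.Agent.P096.Full.Reduce.Grp
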