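import Vale.Agent.P096.Full.Reduce.Groups.Systems

/-!
P096, groups: the signed monomial unitaries of a system form increasing finite groups, and what
commutes with them commutes with the system.
-/

open Vale.Agent.P104 Vale.Agent.P104.Continuous

namespace Vale.Agent.P096.Full.Reduce.Grp

universe u

variable {H : Type u} [NormedAddCommGroup H] [InnerProductSpace ℂ H] [CompleteSpace H]

/-- The elements of `T`, their negatives and zero. -/
def Pm (T : Finset (H →L[ℂ] H)) (x : H →L[ℂ] H) : Prop := x = 0 ∨ x ∈ T ∨ -x ∈ T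

omit [CompleteSpace H] in
lemma Pm.neg {T : Finset (H →L[ℂ] H)} {x : H →L[ℂ] H} (h : Pm T x) : Pm T (-x) := by
  rcases h with h | h | h
  · exact Or.inl (by rw [h, neg_zero])
  · exact Or.inr (Or.inr (by rwa [neg_neg]))
  · exact Or.inr (Or.inl h)

namespace BSys

variable {M : VonNeumannAlgebra H} {cen : ℕ → Finset (H →L[ℂ] H)} (Sy : BSys M cen 1)

open Classical in
/-- The system cut by the parts. -/
noncomputable def S (k : ℕ) : Finset (H →L[ℂ] H) :=
  ((cen k ×ˢ Sy.B k).image fun p => p.1 * p.2).filter (· ≠ 0)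

open Classical in
/-- The projections cut by the parts. -/
noncomputable def P (k : ℕ) : Finset (H →L[ℂ] H) :=
  ((cen k ×ˢ Sy.D k).image fun p => p.1 * p.2).filter (· ≠ 0)

open Classical in
lemma mem_S {k : ℕ} {x : H →L[ℂ] H} :
    x ∈ Sy.S k ↔ x ≠ 0 ∧ ∃ q ∈ cen k, ∃ s ∈ Sy.B k, x = q * s := by
  simp only [S, Finset.mem_filter, Finset.mem_image, Finset.mem_product, Prod.exists]
  constructor
  · rintro ⟨⟨q, s, ⟨hq, hs⟩, rfl⟩, h⟩; exact ⟨h, q, hq, s, hs, rfl⟩
  · rintro ⟨h, q, hq, s, hs, rfl⟩; exact ⟨⟨q, s, ⟨hq, hs⟩, rfl⟩, h⟩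

open Classical in
lemma mem_P {k : ℕ} {x : H →L[ℂ] H} :
    x ∈ Sy.P k ↔ x ≠ 0 ∧ ∃ q ∈ cen k, ∃ d ∈ Sy.D k, x = q * d := by
  simp only [P, Finset.mem_filter, Finset.mem_image, Finset.mem_product, Prod.exists]
  constructor
  · rintro ⟨⟨q, s, ⟨hq, hs⟩, rfl⟩, h⟩; exact ⟨h, q, hq, s, hs, rfl⟩
  · rintro ⟨h, q, hq, s, hs, rfl⟩; exact ⟨⟨q, s, ⟨hq, hs⟩, rfl⟩, h⟩

variable (hP : ∀ k, IsPartition M (cen k))
include hP

open Classical in
lemma cut_mul {k : ℕ} {q q' s t : H →L[ℂ] H} (hq : q ∈ cen k) (hq' : q' ∈ cen k) (hs : s ∈ M) :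
    q * s * (q' * t) = if q = q' then q * (s * t) else 0 := by
  split_ifs with h
  · subst h; exact central_mul_mul ((hP k).cproj q hq) hs
  · calc q * s * (q' * t) = q * (s * q') * t := by simp only [mul_assoc]
      _ = q * q' * (s * t) := by rw [← ((hP k).cproj q' hq').2.2 s hs]; simp only [mul_assoc]
      _ = 0 := by rw [(hP k).orth q hq q' hq' h, zero_mul]

lemma S_mem {k : ℕ} {x : H →L[ℂ] H} (hx : x ∈ Sy.S k) : x ∈ M := by
  obtain ⟨-, q, hq, s, hs, rfl⟩ := (Sy.mem_S).1 hx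
  exact mul_mem ((hP k).cproj q hq).2.1 (Sy.mem k s hs)

omit hP in
lemma P_sub {k : ℕ} {x : H →L[ℂ] H} (hx : x ∈ Sy.P k) : x ∈ Sy.S k := by
  obtain ⟨h, q, hq, d, hd, rfl⟩ := (Sy.mem_P).1 hx
  exact (Sy.mem_S).2 ⟨h, q, hq, d, Sy.sub k hd, rfl⟩

lemma P_proj {k : ℕ} {x : H →L[ℂ] H} (hx : x ∈ Sy.P k) : IsStarProjection x := by
  obtain ⟨-, q, hq, d, hd, rfl⟩ := (Sy.mem_P).1 hx
  exact ((hP k).cproj q hq).1.mul (Sy.proj k d hd)
    (((hP k).cproj q hq).2.2 d (Sy.mem k d (Sy.sub k hd)))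

lemma P_orth {k : ℕ} {x y : H →L[ℂ] H} (hx : x ∈ Sy.P k) (hy : y ∈ Sy.P k) (hne : x ≠ y) :
    x * y = 0 := by
  obtain ⟨-, q, hq, d, hd, rfl⟩ := (Sy.mem_P).1 hx
  obtain ⟨-, q', hq', d', hd', rfl⟩ := (Sy.mem_P).1 hy
  rw [cut_mul hP hq hq' (Sy.mem k d (Sy.sub k hd))]
  split_ifs with h
  · subst h
    rw [Sy.orth k d hd d' hd' fun h' => hne (by rw [h']), mul_zero]
  · rfl

lemma P_sum (k : ℕ) : ∑ x ∈ Sy.P k, x = 1 := by
  classical
  rw [P, Finset.sum_filter_ne_zero]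
  have horth : ∀ i ∈ cen k ×ˢ Sy.D k, ∀ j ∈ cen k ×ˢ Sy.D k, i ≠ j →
      i.1 * i.2 * (j.1 * j.2) = 0 := by
    rintro ⟨q, d⟩ hi ⟨q', d'⟩ hj hne
    obtain ⟨hq, hd⟩ := Finset.mem_product.1 hi
    obtain ⟨hq', hd'⟩ := Finset.mem_product.1 hj
    rw [cut_mul hP hq hq' (Sy.mem k d (Sy.sub k hd))]
    split_ifs with h
    · have hdd : d ≠ d' := fun h' => hne (Prod.ext h h')
      show q * (d * d') = 0
      rw [Sy.orth k d hd d' hd' hdd, mul_zero]
    · rfl
  rw [sum_image_orth _ _ (fun i hi => ?_) horth, Finset.sum_product]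
  · refine Eq.trans (Finset.sum_congr rfl fun q _ => ?_) (hP k).sum
    rw [← Finset.mul_sum]
    exact (congrArg (q * ·) (Sy.sum k)).trans (mul_one q)
  · obtain ⟨hq, hd⟩ := Finset.mem_product.1 hi
    rw [central_mul_mul ((hP k).cproj _ hq) (Sy.mem k _ (Sy.sub k hd)),
      (Sy.proj k _ hd).isIdempotentElem.eq]

lemma S_star {k : ℕ} {x : H →L[ℂ] H} (hx : x ∈ Sy.S k) : star x ∈ Sy.S k := by
  obtain ⟨h, q, hq, s, hs, rfl⟩ := (Sy.mem_S).1 hx
  exact (Sy.mem_S).2 ⟨star_ne_zero.2 h, q, hq, star s, Sy.star' k s hs,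
    central_star ((hP k).cproj q hq) (Sy.mem k s hs)⟩

lemma S_init {k : ℕ} {x : H →L[ℂ] H} (hx : x ∈ Sy.S k) : star x * x ∈ Sy.P k := by
  obtain ⟨h, q, hq, s, hs, rfl⟩ := (Sy.mem_S).1 hx
  have e : star (q * s) * (q * s) = q * (star s * s) := by
    rw [central_star ((hP k).cproj q hq) (Sy.mem k s hs),
      central_mul_mul ((hP k).cproj q hq) (star_mem (Sy.mem k s hs))]
  rcases Sy.init k q hq s hs with h0 | ⟨d, hd, hd'⟩
  · exact absurd h0 h
  · refine (Sy.mem_P).2 ⟨fun h0 => h (eq_zero_of_star_mul_self h0), q, hq, d, hd, ?_⟩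
    rw [e, hd']

lemma S_final {k : ℕ} {x : H →L[ℂ] H} (hx : x ∈ Sy.S k) : x * star x ∈ Sy.P k := by
  simpa using S_init Sy hP (S_star Sy hP hx)

lemma S_right {k : ℕ} {x : H →L[ℂ] H} (hx : x ∈ Sy.S k) : x * (star x * x) = x :=
  pi_mul_self (P_proj Sy hP (S_init Sy hP hx))

lemma S_left {k : ℕ} {x : H →L[ℂ] H} (hx : x ∈ Sy.S k) : x * star x * x = x := by
  rw [mul_assoc, S_right Sy hP hx]

lemma S_off {k : ℕ} {x : H →L[ℂ] H} (hx : x ∈ Sy.S k) : x ∈ Sy.P k ∨ x * x = 0 := by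
  obtain ⟨h, q, hq, s, hs, rfl⟩ := (Sy.mem_S).1 hx
  rcases Sy.off k s hs with h0 | h0
  · exact Or.inl ((Sy.mem_P).2 ⟨h, q, hq, s, h0, rfl⟩)
  · right
    rw [central_mul_mul ((hP k).cproj q hq) (Sy.mem k s hs), h0, mul_zero]

lemma S_mul {k : ℕ} {x y : H →L[ℂ] H} (hx : x ∈ Sy.S k) (hy : y ∈ Sy.S k) :
    Pm (Sy.S k) (x * y) := by
  by_cases hxy : x * y = 0
  · exact Or.inl hxy
  obtain ⟨-, q, hq, s, hs, rfl⟩ := (Sy.mem_S).1 hx
  obtain ⟨-, q', hq', t, ht, rfl⟩ := (Sy.mem_S).1 hy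
  rw [cut_mul hP hq hq' (Sy.mem k s hs)] at hxy ⊢
  split_ifs at hxy ⊢ with h
  · rcases Sy.mul k q hq s hs t ht with h0 | ⟨u, hu, hu'⟩
    · exact absurd h0 hxy
    · exact Or.inr (Or.inl ((Sy.mem_S).2 ⟨hxy, q, hq, u, hu, hu'⟩))
  · exact absurd rfl hxy

variable (href : ∀ k, ∀ q ∈ cen (k + 1), ∃ p ∈ cen k, q * p = q)
include href

lemma S_mixed {k : ℕ} {x y : H →L[ℂ] H} (hx : x ∈ Sy.S k) (hy : y ∈ Sy.S (k + 1)) :
    Pm (Sy.S (k + 1)) (x * y) := by
  by_cases hxy : x * y = 0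
  · exact Or.inl hxy
  obtain ⟨-, q0, hq0, s, hs, rfl⟩ := (Sy.mem_S).1 hx
  obtain ⟨-, q, hq, t, ht, rfl⟩ := (Sy.mem_S).1 hy
  obtain ⟨p, hp, hqp⟩ := href k q hq
  have hqc := (hP (k + 1)).cproj q hq
  have h0c := (hP k).cproj q0 hq0
  have e : q0 * s * (q * t) = q0 * q * (s * t) := by
    calc q0 * s * (q * t) = q0 * (s * q) * t := by simp only [mul_assoc]
      _ = _ := by rw [← hqc.2.2 s (Sy.mem k s hs)]; simp only [mul_assoc]
  have e' : q0 * q = q * (p * q0) := by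
    rw [h0c.2.2 q hqc.2.1]
    conv_lhs => rw [← hqp]
    rw [mul_assoc]
  by_cases h : p = q0
  · subst h
    rw [e, e', h0c.1.isIdempotentElem.eq, hqp] at hxy ⊢
    rcases Sy.mixed k q hq s hs t ht with h1 | ⟨u, hu, hu'⟩
    · exact absurd h1 hxy
    · exact Or.inr (Or.inl ((Sy.mem_S).2 ⟨hxy, q, hq, u, hu, hu'⟩))
  · refine absurd ?_ hxy
    rw [e, e', (hP k).orth p hp q0 hq0 h, mul_zero, zero_mul]

lemma P_refine {k : ℕ} {x : H →L[ℂ] H} (hx : x ∈ Sy.P (k + 1)) :
    ∃ x0 ∈ Sy.P k, x0 * x = x := by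
  obtain ⟨h, q, hq, d, hd, rfl⟩ := (Sy.mem_P).1 hx
  obtain ⟨p, hp, hqp⟩ := href k q hq
  obtain ⟨d0, hd0, hdd⟩ := Sy.refine' k d hd
  have hpc := (hP k).cproj p hp
  have hqc := (hP (k + 1)).cproj q hq
  have e : p * d0 * (q * d) = q * d := by
    calc p * d0 * (q * d) = p * (d0 * q) * d := by simp only [mul_assoc]
      _ = p * q * (d0 * d) := by
        rw [← hqc.2.2 d0 (Sy.mem k d0 (Sy.sub k hd0))]; simp only [mul_assoc]
      _ = q * d := by rw [hdd, hpc.2.2 q hqc.2.1, hqp]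
  refine ⟨p * d0, (Sy.mem_P).2 ⟨fun h0 => h ?_, p, hp, d0, hd0, rfl⟩, e⟩
  rw [← e, h0, zero_mul]

omit hP href in
open Classical in
/-- The candidates for the monomial unitaries. -/
noncomputable def candidates (k : ℕ) : Finset (H →L[ℂ] H) :=
  ((Sy.P k).pi fun _ => insert 0 (Sy.S k ∪ (Sy.S k).image Neg.neg)).image
    fun f => ∑ d ∈ (Sy.P k).attach, f d.1 d.2

omit hP href in
/-- `u` permutes the system up to signs. -/
def IsMono (k : ℕ) (u : H →L[ℂ] H) : Prop :=
  u ∈ unitary (H →L[ℂ] H) ∧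
    ∀ s ∈ Sy.S k, Pm (Sy.S k) (u * s) ∧ Pm (Sy.S k) (star u * s)

omit hP href in
open Classical in
/-- The monomial unitaries. -/
noncomputable def G (k : ℕ) : Finset (H →L[ℂ] H) := (Sy.candidates k).filter (Sy.IsMono k)

omit href in
lemma mem_G {k : ℕ} {u : H →L[ℂ] H} : u ∈ Sy.G k ↔ Sy.IsMono k u := by
  classical
  refine ⟨fun h => (Finset.mem_filter.1 h).2, fun h => Finset.mem_filter.2 ⟨?_, h⟩⟩
  refine Finset.mem_image.2 ⟨fun d _ => u * d, Finset.mem_pi.2 fun d hd => ?_, ?_⟩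
  · rcases (h.2 d (P_sub Sy hd)).1 with h1 | h1 | h1
    · exact Finset.mem_insert.2 (Or.inl h1)
    · exact Finset.mem_insert.2 (Or.inr (Finset.mem_union_left _ h1))
    · exact Finset.mem_insert.2 (Or.inr (Finset.mem_union_right _
        (Finset.mem_image.2 ⟨_, h1, neg_neg _⟩)))
  · rw [Finset.sum_attach (Sy.P k) (fun d => u * d), ← Finset.mul_sum, P_sum Sy hP, mul_one]

omit href in
lemma mono_mem {k : ℕ} {u : H →L[ℂ] H} (hu : Sy.IsMono k u) : u ∈ M := by
  rw [← mul_one u, ← P_sum Sy hP k, Finset.mul_sum]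
  refine sum_mem fun d hd => ?_
  rcases (hu.2 d (P_sub Sy hd)).1 with h | h | h
  · rw [h]; exact zero_mem M
  · exact S_mem Sy hP h
  · rw [← neg_neg (u * d)]; exact neg_mem (S_mem Sy hP h)

omit hP href in
lemma mono_apply {k : ℕ} {u x : H →L[ℂ] H} (hu : Sy.IsMono k u) (hx : Pm (Sy.S k) x) :
    Pm (Sy.S k) (u * x) := by
  rcases hx with h | h | h
  · exact Or.inl (by rw [h, mul_zero])
  · exact (hu.2 x h).1
  · have := (hu.2 _ h).1.neg
    rwa [mul_neg, neg_neg] at this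

lemma mono_succ {k : ℕ} {u : H →L[ℂ] H} (hu : Sy.IsMono k u) : Sy.IsMono (k + 1) u := by
  have key : ∀ v, (∀ s ∈ Sy.S k, Pm (Sy.S k) (v * s)) →
      ∀ t ∈ Sy.S (k + 1), Pm (Sy.S (k + 1)) (v * t) := by
    intro v hv t ht
    obtain ⟨d0, hd0, hdd⟩ := P_refine Sy hP href (S_final Sy hP ht)
    have e : t = d0 * t := by
      conv_lhs => rw [← S_left Sy hP ht, ← hdd]
      rw [mul_assoc, S_left Sy hP ht]
    rw [e, ← mul_assoc]
    rcases hv d0 (P_sub Sy hd0) with h | h | h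
    · exact Or.inl (by rw [h, zero_mul])
    · exact S_mixed Sy hP href h ht
    · have := (S_mixed Sy hP href h ht).neg
      rwa [neg_mul, neg_neg] at this
  exact ⟨hu.1, fun t ht => ⟨key u (fun s hs => (hu.2 s hs).1) t ht,
    key (star u) (fun s hs => (hu.2 s hs).2) t ht⟩⟩

/-- The groups of monomial unitaries. -/
noncomputable def groups : Groups H where
  G := Sy.G
  one_mem k := (mem_G Sy hP).2 ⟨one_mem _, fun s hs => by
    simp only [star_one, one_mul]; exact ⟨Or.inr (Or.inl hs), Or.inr (Or.inl hs)⟩⟩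
  mul_mem k g hg h hh := by
    have hg' := (mem_G Sy hP).1 hg
    have hh' := (mem_G Sy hP).1 hh
    have hgs : Sy.IsMono k (star g) := ⟨Unitary.star_mem hg'.1, fun s hs => by
      rw [star_star]; exact (hg'.2 s hs).symm⟩
    have hhs : Sy.IsMono k (star h) := ⟨Unitary.star_mem hh'.1, fun s hs => by
      rw [star_star]; exact (hh'.2 s hs).symm⟩
    refine (mem_G Sy hP).2 ⟨mul_mem hg'.1 hh'.1, fun s hs => ⟨?_, ?_⟩⟩
    · rw [mul_assoc]; exact mono_apply Sy hg' (hh'.2 s hs).1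
    · rw [star_mul, mul_assoc]; exact mono_apply Sy hhs (hgs.2 s hs).1
  star_mem k g hg := by
    have hg' := (mem_G Sy hP).1 hg
    exact (mem_G Sy hP).2 ⟨Unitary.star_mem hg'.1, fun s hs => by
      rw [star_star]; exact (hg'.2 s hs).symm⟩
  mem_unitary k g hg := ((mem_G Sy hP).1 hg).1
  mono := fun m n h => monotone_nat_of_le_succ
    (fun k g hg => (mem_G Sy hP).2 (mono_succ Sy hP href ((mem_G Sy hP).1 hg))) h

lemma groups_mem {g : H →L[ℂ] H} (hg : g ∈ (groups Sy hP href).carrier) : g ∈ M := by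
  obtain ⟨k, hk⟩ := hg
  exact mono_mem Sy hP ((mem_G Sy hP).1 hk)

omit hP href in
lemma sym_unitary {d : H →L[ℂ] H} (hd : IsStarProjection d) :
    1 - (2 : ℂ) • d ∈ unitary (H →L[ℂ] H) := by
  have hs : star (1 - (2 : ℂ) • d) = 1 - (2 : ℂ) • d := by
    simp [star_sub, star_smul, hd.isSelfAdjoint.star_eq]
  have hsq : (1 - (2 : ℂ) • d) * (1 - (2 : ℂ) • d) = 1 := by
    simp only [sub_mul, mul_sub, one_mul, mul_one, smul_mul_assoc, mul_smul_comm,
      hd.isIdempotentElem.eq]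
    module
  exact Unitary.mem_iff.2 ⟨by rw [hs, hsq], by rw [hs, hsq]⟩

omit hP href in
lemma sym_mono {k : ℕ} {d : H →L[ℂ] H} (hd : IsStarProjection d)
    (h : ∀ s ∈ Sy.S k, d * s = 0 ∨ d * s = s) : Sy.IsMono k (1 - (2 : ℂ) • d) := by
  have hs' : star (1 - (2 : ℂ) • d) = 1 - (2 : ℂ) • d := by
    simp [star_sub, star_smul, hd.isSelfAdjoint.star_eq]
  have key : ∀ s ∈ Sy.S k, Pm (Sy.S k) ((1 - (2 : ℂ) • d) * s) := fun s hs => by
    rw [sub_mul, one_mul, smul_mul_assoc]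
    rcases h s hs with e | e
    · rw [e, smul_zero, sub_zero]; exact Or.inr (Or.inl hs)
    · rw [e]
      refine Or.inr (Or.inr ?_)
      rw [show -(s - (2 : ℂ) • s) = s by module]
      exact hs
  exact ⟨sym_unitary hd, fun s hs => ⟨key s hs, by rw [hs']; exact key s hs⟩⟩

omit href in
lemma cen_sym {k : ℕ} {q : H →L[ℂ] H} (hq : q ∈ cen k) : 1 - (2 : ℂ) • q ∈ Sy.G k := by
  refine (mem_G Sy hP).2 (sym_mono Sy ((hP k).cproj q hq).1 fun s hs => ?_)
  obtain ⟨-, q', hq', t, -, rfl⟩ := (Sy.mem_S).1 hs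
  rw [← mul_assoc]
  by_cases h : q = q'
  · right; rw [h, ((hP k).cproj q' hq').1.isIdempotentElem.eq]
  · left; rw [(hP k).orth q hq q' hq' h, zero_mul]

omit href in
lemma P_case {k : ℕ} {d s : H →L[ℂ] H} (hd : d ∈ Sy.P k) (hs : s ∈ Sy.S k) :
    (d * s = 0 ∧ d ≠ s * star s) ∨ (d * s = s ∧ d = s * star s) := by
  by_cases h : d = s * star s
  · exact Or.inr ⟨by rw [h, S_left Sy hP hs], h⟩
  · left
    refine ⟨?_, h⟩
    rw [← S_left Sy hP hs, ← mul_assoc, P_orth Sy hP hd (S_final Sy hP hs) h, zero_mul]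

omit hP href in
/-- The exchange of the two projections of a square zero partial isometry. -/
noncomputable def swap (t : H →L[ℂ] H) : H →L[ℂ] H :=
  1 - t * star t - star t * t + (t + star t)

omit href in
lemma swap_mono {k : ℕ} {t : H →L[ℂ] H} (ht : t ∈ Sy.S k) (h0 : t * t = 0) :
    Sy.IsMono k (swap t) := by
  have h0' : star t * star t = 0 := by simpa using congrArg star h0
  have hr : t * (star t * t) = t := S_right Sy hP ht
  have hl : t * star t * t = t := S_left Sy hP ht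
  have hr' : star t * (t * star t) = star t := by simpa [mul_assoc] using congrArg star hl
  have hl' : star t * t * star t = star t := by rw [mul_assoc, hr']
  have hs : star (swap t) = swap t := by
    simp only [swap, star_add, star_sub, star_one, star_mul, star_star]; abel
  have hsq : swap t * swap t = 1 := by
    have a1 : t * star t * (t * star t) = t * star t := by rw [← mul_assoc, hl]
    have a2 : star t * t * (star t * t) = star t * t := by rw [← mul_assoc, hl']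
    have a3 : t * star t * (star t * t) = 0 := by
      rw [mul_assoc, ← mul_assoc (star t), h0', zero_mul, mul_zero]
    have a4 : star t * t * (t * star t) = 0 := by
      rw [mul_assoc, ← mul_assoc t, h0, zero_mul, mul_zero]
    have a5 : t * star t * star t = 0 := by rw [mul_assoc, h0', mul_zero]
    have a6 : star t * t * t = 0 := by rw [mul_assoc, h0, mul_zero]
    have a7 : t * (t * star t) = 0 := by rw [← mul_assoc, h0, zero_mul]
    have a8 : star t * (star t * t) = 0 := by rw [← mul_assoc, h0', zero_mul]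
    simp only [swap, add_mul, sub_mul, mul_add, mul_sub, one_mul, mul_one, a1, a2, a3, a4, a5,
      a6, a7, a8, hl, hl', hr, hr', h0, h0']
    abel
  refine ⟨Unitary.mem_iff.2 ⟨by rw [hs, hsq], by rw [hs, hsq]⟩, fun s hs' => ?_⟩
  rw [hs, and_self]
  have e : swap t * s = s - t * star t * s - star t * t * s + (t * s + star t * s) := by
    simp only [swap, add_mul, sub_mul, one_mul]
  rw [e]
  rcases P_case Sy hP (S_final Sy hP ht) hs' with ⟨ha, -⟩ | ⟨ha, hne⟩
  · rcases P_case Sy hP (S_init Sy hP ht) hs' with ⟨hb, -⟩ | ⟨hb, -⟩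
    · have h1 : t * s = 0 := by rw [← hr, mul_assoc t, hb, mul_zero]
      have h2 : star t * s = 0 := by rw [← hr', mul_assoc (star t), ha, mul_zero]
      rw [ha, hb, h1, h2]
      simp only [sub_zero, add_zero]
      exact Or.inr (Or.inl hs')
    · have h2 : star t * s = 0 := by rw [← hr', mul_assoc (star t), ha, mul_zero]
      rw [ha, hb, h2]
      simp only [sub_zero, add_zero, sub_self, zero_add]
      exact S_mul Sy hP ht hs'
  · have hb : star t * t * s = 0 := by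
      rw [← ha, ← mul_assoc, mul_assoc (star t), ← mul_assoc t, h0, zero_mul, mul_zero, zero_mul]
    have h1 : t * s = 0 := by rw [← ha, ← mul_assoc, ← mul_assoc, h0, zero_mul, zero_mul]
    rw [ha, hb, h1]
    simp only [sub_self, zero_add]
    exact S_mul Sy hP (S_star Sy hP ht) hs'

/-- What commutes with the groups commutes with the cut system. -/
lemma comm_S {x : H →L[ℂ] H} (hx : ∀ g ∈ (groups Sy hP href).carrier, g * x = x * g) {k : ℕ}
    {t : H →L[ℂ] H} (ht : t ∈ Sy.S k) : t * x = x * t := by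
  have hG : ∀ u, Sy.IsMono k u → u * x = x * u := fun u hu =>
    hx u ⟨k, (mem_G Sy hP).2 hu⟩
  have hPc : ∀ d ∈ Sy.P k, d * x = x * d := by
    intro d hd
    have h := hG _ (sym_mono Sy (P_proj Sy hP hd) fun s hs => by
      rcases P_case Sy hP hd hs with ⟨h, -⟩ | ⟨h, -⟩
      · exact Or.inl h
      · exact Or.inr h)
    simp only [sub_mul, mul_sub, one_mul, mul_one, smul_mul_assoc, mul_smul_comm,
      sub_right_inj] at h
    exact smul_right_injective _ (two_ne_zero : (2 : ℂ) ≠ 0) h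
  rcases S_off Sy hP ht with h | h
  · exact hPc t h
  have ha := hPc _ (S_final Sy hP ht)
  have hb := hPc _ (S_init Sy hP ht)
  have hw := hG _ (swap_mono Sy hP ht h)
  have hw' : (t + star t) * x = x * (t + star t) := by
    simp only [swap, add_mul, sub_mul, mul_add, mul_sub, one_mul, mul_one, ha, hb] at hw
    simp only [add_mul, mul_add]
    exact add_left_cancel hw
  have e : t * star t * (t + star t) = t := by
    have h0' : star t * star t = 0 := by simpa using congrArg star h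
    rw [mul_add, S_left Sy hP ht, mul_assoc, h0', mul_zero, add_zero]
  calc t * x = t * star t * ((t + star t) * x) := by rw [← mul_assoc, e]
    _ = t * star t * x * (t + star t) := by rw [hw', ← mul_assoc]
    _ = x * (t * star t * (t + star t)) := by rw [ha, mul_assoc]
    _ = x * t := by rw [e]

/-- What commutes with the groups commutes with the system. -/
lemma comm_B {x : H →L[ℂ] H} (hx : ∀ g ∈ (groups Sy hP href).carrier, g * x = x * g) {k : ℕ}
    {s : H →L[ℂ] H} (hs : s ∈ Sy.B k) : s * x = x * s := by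
  have e : s = ∑ q ∈ cen k, q * s := by rw [← Finset.sum_mul, (hP k).sum, one_mul]
  rw [e, Finset.sum_mul, Finset.mul_sum]
  refine Finset.sum_congr rfl fun q hq => ?_
  by_cases h : q * s = 0
  · rw [h, zero_mul, mul_zero]
  · exact comm_S Sy hP href hx ((Sy.mem_S).2 ⟨h, q, hq, s, hs, rfl⟩)

end BSys

end Vale.Agent.P096.Full.Reduce.Grp
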