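import Vale.Agent.P096.Full.Reduce.Groups.Criterion
import Vale.Agent.P096.Full.Reduce.Groups.Monomial
import Vale.Agent.P096.Full.Reduce.Groups.Continuous
import Vale.Agent.P096.Full.Reduce.Groups.Discrete
import Vale.Agent.P104.Continuous.Split

/-!
P096, groups: an algebra in standard form with a countable generating set has finite groups of
unitaries whose invariant vectors come from central partitions.
-/

open scoped InnerProductSpace
open Vale.Agent.P104 Vale.Agent.P104.Continuous Vale.Agent.P104.Discrete

namespace Vale.Agent.P096.Full.Reduce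

open Grp in
theorem groupsSpec : GroupsSpec := by
  intro H _ _ _ M ξ hT hg
  have := separable_of M ξ hT.dense hg
  obtain ⟨z, hz, hzc, hzd⟩ := split_exists M
  have hz' := centralProj_compl hz
  obtain ⟨C⟩ := exists_cover hz' hzd
  obtain ⟨D, hD, hDK⟩ := exists_dense_proj M ξ
  let c : ℕ → (H →L[ℂ] H) := fun n => if n % 2 = 0 then D (n / 2) else C.cov (n / 2)
  have hc : ∀ n, IsCentralProj M (c n) := fun n => by
    by_cases h : n % 2 = 0 <;> simp [c, h, hD, C.cov_central]
  have hcD : ∀ i, c (2 * i) = D i := fun i => by simp [c]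
  have hcC : ∀ i, c (2 * i + 1) = C.cov i := fun i => by
    simp [c, show (2 * i + 1) % 2 = 1 by omega, show (2 * i + 1) / 2 = i by omega]
  let cen : ℕ → Finset (H →L[ℂ] H) := fun k => part c (2 * k + 2)
  have hP : ∀ k, IsPartition M (cen k) := fun k => part_isPartition hc _
  have href : ∀ k, ∀ q ∈ cen (k + 1), ∃ p ∈ cen k, q * p = q := fun k q hq =>
    part_refine hc (show 2 * k + 2 ≤ 2 * (k + 1) + 2 by omega) q hq
  obtain ⟨S, hS⟩ := exists_continuous_sys hT hz hzc cen
  let T := C.sys hz' hP fun k q hq i hi => by
    rw [← hcC i]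
    exact part_decided hc (show 2 * i + 1 < 2 * k + 2 by omega) hq
  have horth : z * (1 - z) = 0 := by rw [mul_sub, mul_one, hz.1.isIdempotentElem.eq, sub_self]
  let U : BSys M cen 1 := (S.union T hz hz' horth).cast (add_sub_cancel z 1)
  have hΓ : ∀ g ∈ (U.groups hP href).carrier, g ∈ M := fun g hg => U.groups_mem hP href hg
  let Z : Parts M (U.groups hP href) :=
    { cen := cen
      proj := fun k q hq =>
        ⟨((hP k).cproj q hq).1.isSelfAdjoint.star_eq, ((hP k).cproj q hq).1.isIdempotentElem.eq,
          (hP k).ne q hq⟩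
      orth := fun k => (hP k).orth
      sum := fun k => (hP k).sum
      sym := fun k q hq => U.cen_sym hP hq
      refine' := href
      comm := fun k q hq x hx => ((hP k).cproj q hq).2.2 x hx }
  refine ⟨_, Z, hΓ, fun η hη => criterion hT Z hΓ ?_ ?_ hη⟩
  · intro x hx hxc
    have hU : ∀ k s, s ∈ (S.union T hz hz' horth).B k → s * x = x * s := fun k s hs =>
      U.comm_B hP href hxc (k := k) (by
        show s ∈ ((S.union T hz hz' horth).cast _).B k
        rw [BSys.cast_B]; exact hs)
    have h1 : InCentre M (x * z) := hS x hx fun k s hs =>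
      hU k s (BSys.mem_union_left hz hz' horth hs)
    have h2 : InCentre M (x * (1 - z)) := C.central_of_comm hz' hx fun i j =>
      hU (max i j) _ (BSys.mem_union_right hz hz' horth
        (C.elts_mem (le_max_left i j) (le_max_right i j)))
    rw [show x = x * z + x * (1 - z) by rw [← mul_add, add_sub_cancel, mul_one]]
    exact ⟨add_mem h1.1 h2.1, fun w hw => by rw [add_mul, mul_add, h1.2 w hw, h2.2 w hw]⟩
  · intro d hd
    have hle : (Submodule.span ℂ (Set.range fun i => D i ξ)).topologicalClosure ≤
        Z.closedSpan ξ := by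
      refine Submodule.topologicalClosure_mono (Submodule.span_le.2 ?_)
      rintro _ ⟨i, rfl⟩
      show D i ξ ∈ _
      rw [← hcD i]
      refine Submodule.span_mono ?_
        (decided_span hc (show 2 * i < 2 * i + 2 by omega) ξ)
      rintro _ ⟨q, hq, rfl⟩
      exact ⟨i, q, hq, rfl⟩
    exact hle (hDK d hd)

end Vale.Agent.P096.Full.Reduce
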