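import Vale.Agent.P096.Full.Reduce.Groups.Util
import Vale.Agent.P096.Full.Reduce.Chain

/-!
P096, groups: if the centre is what commutes with the groups, and central vectors lie in the
closed span of the parts, then invariant vectors lie there too.
-/

open scoped InnerProductSpace
open Filter Topology
open Vale.Agent.P104 Vale.Agent.P104.Continuous Vale.Agent.P104.Discrete

namespace Vale.Agent.P096.Full.Reduce.Grp

variable {H : Type} [NormedAddCommGroup H] [InnerProductSpace ℂ H] [CompleteSpace H]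
  {M : VonNeumannAlgebra H} {ξ : H} {Γ : Groups H}

lemma cen_mem (Z : Parts M Γ) (hΓ : ∀ g ∈ Γ.carrier, g ∈ M) {k : ℕ} {q : H →L[ℂ] H}
    (hq : q ∈ Z.cen k) : q ∈ M := by
  have h := smul_mem' (1 / 2 : ℂ) (sub_mem (one_mem M) (hΓ _ ⟨k, Z.sym k q hq⟩))
  rwa [sub_sub_cancel, smul_smul, show (1 / 2 : ℂ) * 2 = 1 by norm_num, one_smul] at h

omit [CompleteSpace H] in
lemma span_orth {S : Set H} {w : H} (h : ∀ v ∈ S, ⟪v, w⟫_ℂ = 0) {v : H}
    (hv : v ∈ (Submodule.span ℂ S).topologicalClosure) : ⟪v, w⟫_ℂ = 0 := by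
  have hle : (Submodule.span ℂ S).topologicalClosure ≤ (Submodule.span ℂ {w})ᗮ :=
    Submodule.topologicalClosure_minimal _ (Submodule.span_le.2 fun x hx =>
      Submodule.mem_orthogonal_singleton_iff_inner_left.2 (h x hx))
      (Submodule.isClosed_orthogonal _)
  exact Submodule.mem_orthogonal_singleton_iff_inner_left.1 (hle hv)

/-- Invariant vectors lie in the closed span of the parts. -/
theorem criterion (hT : TracialCyclic M ξ) (Z : Parts M Γ) (hΓ : ∀ g ∈ Γ.carrier, g ∈ M)
    (hcent : ∀ x ∈ M, (∀ g ∈ Γ.carrier, g * x = x * g) → InCentre M x)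
    (hK : ∀ c, InCentre M c → c ξ ∈ Z.closedSpan ξ) {η : H}
    (hη : ∀ g ∈ Γ.carrier, ∀ z ∈ M, ⟪η, g (z ξ)⟫_ℂ = ⟪η, z (g ξ)⟫_ℂ) :
    η ∈ Z.closedSpan ξ := by
  set K := Z.closedSpan ξ with hKd
  have : CompleteSpace K :=
    (Submodule.isClosed_topologicalClosure _).completeSpace_coe
  set η' := η - K.starProjection η with hη'
  have horth : ∀ v ∈ K, ⟪v, η'⟫_ℂ = 0 := fun v hv =>
    (Submodule.mem_orthogonal _ _).1 (Submodule.sub_starProjection_mem_orthogonal η) v hv
  have hinv : ∀ v ∈ K, ∀ g ∈ Γ.carrier, ∀ z ∈ M, ⟪v, g (z ξ)⟫_ℂ = ⟪v, z (g ξ)⟫_ℂ := by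
    intro v hv g hg z hz
    refine sub_eq_zero.1 ?_
    rw [← inner_sub_right]
    refine span_orth (fun y hy => ?_) hv
    obtain ⟨k, q, hq, rfl⟩ := hy
    have hs : IsSelfAdjoint q := (Z.proj k q hq).1
    have hqM := cen_mem Z hΓ hq
    have hgM := hΓ g hg
    rw [inner_sub_right, sub_eq_zero, inner_proj hs, inner_proj hs, ← apply_mul q g,
      Z.comm k q hq g hgM, apply_mul, ← apply_mul q z, ← apply_mul q z]
    exact hT.trace g hgM (q * z) (mul_mem hqM hz)
  have hinv' : ∀ g ∈ Γ.carrier, ∀ z ∈ M, ⟪η', g (z ξ)⟫_ℂ = ⟪η', z (g ξ)⟫_ℂ := fun g hg z hz => by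
    rw [hη', inner_sub_left, inner_sub_left, hη g hg z hz,
      hinv _ (K.starProjection_apply_mem η) g hg z hz]
  have hzero : ∀ x ∈ M, ⟪η', x ξ⟫_ℂ = 0 := by
    intro x hx
    let f : (H →L[ℂ] H) → (H →L[ℂ] H) := fun g => g * x * star g
    have hu : ∀ g ∈ Γ.carrier, star g * g = 1 ∧ g * star g = 1 := fun g hg =>
      Unitary.mem_iff.1 (Groups.unitary_carrier hg)
    have hn : ∀ g ∈ Γ.carrier, ‖f g‖ ≤ ‖x‖ := fun g hg => by
      have h1 := norm_le_one (Groups.unitary_carrier hg)
      have h2 : ‖star g‖ ≤ 1 := by rwa [norm_star]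
      exact (norm_mul_le _ _).trans ((mul_le_of_le_one_right (norm_nonneg _) h2).trans
        ((norm_mul_le _ _).trans (mul_le_of_le_one_left (norm_nonneg _) h1)))
    obtain ⟨x', hx'⟩ := exists_mean hn
    have hfM : ∀ g ∈ Γ.carrier, f g ∈ M := fun g hg =>
      mul_mem (mul_mem (hΓ g hg) hx) (star_mem (hΓ g hg))
    have hx'M : x' ∈ M := hx'.mem M hfM
    have hcomm : ∀ k ∈ Γ.carrier, k * x' = x' * k := fun k hk => by
      have e : k * x' * star k = x' := by
        refine (((hx'.mul_left k).mul_right (star k)).congr fun g _ => ?_).unique (hx'.shift hk)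
        simp only [f, star_mul, mul_assoc]
      conv_rhs => rw [← e, mul_assoc, (hu k hk).1, mul_one]
    have h0 : ⟪η', x' ξ⟫_ℂ = 0 := by
      rw [← inner_conj_symm, horth _ (hK _ (hcent x' hx'M hcomm)), map_zero]
    have hconst : ∀ g ∈ Γ.carrier, ⟪η', f g ξ⟫_ℂ = ⟪η', x ξ⟫_ℂ := fun g hg => by
      have := hinv' g hg (x * star g) (mul_mem hx (star_mem (hΓ g hg)))
      simp only [← apply_mul] at this
      simp only [f]
      rw [mul_assoc g x (star g), this, mul_assoc, (hu g hg).1, mul_one]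
    have ht : ∀ m, ⟪η', avg Γ m f ξ⟫_ℂ = ⟪η', x ξ⟫_ℂ := fun m => by
      rw [avg, smul_apply, sum_apply, inner_smul_right, inner_sum,
        Finset.sum_congr rfl fun g hg => hconst g ⟨m, hg⟩, Finset.sum_const, nsmul_eq_mul,
        ← mul_assoc, inv_mul_cancel₀ (card_ne m), one_mul]
    have hl := hx' η' ξ
    simp only [ht] at hl
    exact (tendsto_nhds_unique tendsto_const_nhds hl).trans h0
  have hz0 : η' = 0 := by
    refine ext_inner_right ℂ fun v => ?_
    rw [inner_zero_left]
    refine congrFun (Continuous.ext_on hT.dense (continuous_const.inner continuous_id)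
      (continuous_const (y := (0 : ℂ))) ?_) v
    rintro _ ⟨x, hx, rfl⟩
    exact hzero x hx
  rw [sub_eq_zero.1 hz0]
  exact K.starProjection_apply_mem η

/-- Countably many central projections whose vectors span the central vectors. -/
theorem exists_dense_proj [TopologicalSpace.SeparableSpace H] (M : VonNeumannAlgebra H) (ξ : H) :
    ∃ D : ℕ → (H →L[ℂ] H), (∀ i, IsCentralProj M (D i)) ∧ ∀ c, InCentre M c →
      c ξ ∈ (Submodule.span ℂ (Set.range fun i => D i ξ)).topologicalClosure := by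
  have : SecondCountableTopology H := UniformSpace.secondCountable_of_separable H
  let S : Set H := {v | ∃ q, IsCentralProj M q ∧ v = q ξ}
  have : Nonempty S := ⟨⟨_, 1, centralProj_one, rfl⟩⟩
  have key : ∀ i, ∃ q, IsCentralProj M q ∧ (TopologicalSpace.denseSeq S i : H) = q ξ :=
    fun i => (TopologicalSpace.denseSeq S i).2
  choose D hD hDe using key
  refine ⟨D, hD, ?_⟩
  set L := (Submodule.span ℂ (Set.range fun i => D i ξ)).topologicalClosure with hL
  have hSL : S ⊆ L := by
    intro v hv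
    have h := (TopologicalSpace.denseRange_denseSeq S) ⟨v, hv⟩
    have h' := map_mem_closure (continuous_subtype_val (p := fun x => x ∈ S)) h
      (t := Set.range fun i => D i ξ) (by
        rintro _ ⟨i, rfl⟩
        exact ⟨i, (hDe i).symm⟩)
    rw [hL, Submodule.topologicalClosure_coe]
    exact closure_mono Submodule.subset_span h'
  set K0 := Submodule.span ℂ S with hK0
  have hle : K0.topologicalClosure ≤ L :=
    Submodule.topologicalClosure_minimal _ (Submodule.span_le.2 hSL)
      (Submodule.isClosed_topologicalClosure _)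
  have hstab : ∀ e, IsCentralProj M e → ∀ v ∈ K0, e v ∈ K0 := by
    intro e he v hv
    have : K0 ≤ Submodule.comap e.toLinearMap K0 := by
      refine Submodule.span_le.2 ?_
      rintro _ ⟨q, hq, rfl⟩
      exact Submodule.subset_span ⟨e * q, centralProj_mul he hq, rfl⟩
    exact this hv
  have hξ : ξ ∈ K0 := Submodule.subset_span ⟨1, centralProj_one, rfl⟩
  have hsa : ∀ h, InCentre M h → IsSelfAdjoint h → h ξ ∈ L := by
    intro h hh hhs
    have hc : cl K0 * h = h * cl K0 := by
      refine comm_of_comm_proj hh.1 hhs fun e he hep hce => ?_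
      have hcen : IsCentralProj M e := ⟨hep, he, fun y hy =>
        (hce y (hh.2 y hy).symm (hh.2 _ (star_mem hy)).symm).symm.eq⟩
      exact (cl_comm (hstab e hcen) (by rw [hep.isSelfAdjoint.star_eq]; exact hstab e hcen)).symm
    have e := DFunLike.congr_fun hc ξ
    rw [apply_mul, apply_mul, cl_fix hξ] at e
    exact hle (e ▸ Submodule.starProjection_apply_mem _ _)
  intro c hc
  have hcs : InCentre M (star c) := ⟨star_mem hc.1, fun x hx => by
    simpa using (congrArg star (hc.2 (star x) (star_mem hx))).symm⟩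
  set a := (1 / 2 : ℂ) • (c + star c) with ha
  set b := (-(Complex.I / 2)) • (c - star c) with hb
  have hab : c = a + Complex.I • b := by
    rw [ha, hb, smul_smul, show Complex.I * -(Complex.I / 2) = 1 / 2 by
      rw [mul_neg, ← mul_div_assoc, Complex.I_mul_I]; ring]
    module
  have sc : ∀ (l : ℂ) {d : H →L[ℂ] H}, InCentre M d → InCentre M (l • d) := fun l d hd =>
    ⟨smul_mem' l hd.1, fun x hx => by rw [smul_mul_assoc, mul_smul_comm, hd.2 x hx]⟩
  have h1 := hsa a (sc _ ⟨add_mem hc.1 hcs.1, fun x hx => by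
    rw [add_mul, mul_add, hc.2 x hx, hcs.2 x hx]⟩) (by
    rw [ha, IsSelfAdjoint, star_smul, star_add, star_star, add_comm (star c)]; simp)
  have h2 := hsa b (sc _ ⟨sub_mem hc.1 hcs.1, fun x hx => by
    rw [sub_mul, mul_sub, hc.2 x hx, hcs.2 x hx]⟩) (by
    rw [hb, IsSelfAdjoint, star_smul, star_sub, star_star, star_neg,
      show star (Complex.I / 2) = -(Complex.I / 2) by simp [neg_div]]
    module)
  rw [hab, add_apply, smul_apply]
  exact add_mem h1 (Submodule.smul_mem _ _ h2)

end Vale.Agent.P096.Full.Reduce.Grp
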