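import Vale.Agent.P096.Full.Reduce.Groups.Util

/-!
P096, groups: the finite central partitions cut out by a sequence of central projections.
-/

open Vale.Agent.P104 Vale.Agent.P104.Continuous

namespace Vale.Agent.P096.Full.Reduce.Grp

universe u

variable {H : Type u} [NormedAddCommGroup H] [InnerProductSpace ℂ H] [CompleteSpace H]

open Classical in
/-- One cut of a partition. -/
noncomputable def cut (P : Finset (H →L[ℂ] H)) (c : H →L[ℂ] H) : Finset (H →L[ℂ] H) :=
  ((P ×ˢ (Finset.univ : Finset Bool)).image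
    fun p => if p.2 then p.1 * c else p.1 * (1 - c)).filter (· ≠ 0)

open Classical in
/-- The partition cut out by the first `n` projections. -/
noncomputable def part (c : ℕ → (H →L[ℂ] H)) : ℕ → Finset (H →L[ℂ] H)
  | 0 => ({1} : Finset (H →L[ℂ] H)).filter (· ≠ 0)
  | n + 1 => cut (part c n) (c n)

/-- A finite partition of the identity by nonzero central projections. -/
structure IsPartition (M : VonNeumannAlgebra H) (P : Finset (H →L[ℂ] H)) : Prop where
  cproj : ∀ q ∈ P, IsCentralProj M q
  ne : ∀ q ∈ P, q ≠ 0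
  orth : ∀ p ∈ P, ∀ q ∈ P, p ≠ q → p * q = 0
  sum : ∑ q ∈ P, q = 1

variable {M : VonNeumannAlgebra H} {c : ℕ → (H →L[ℂ] H)}

omit [CompleteSpace H] in
open Classical in
lemma mem_cut {P : Finset (H →L[ℂ] H)} {a q : H →L[ℂ] H} :
    q ∈ cut P a ↔ q ≠ 0 ∧ ∃ p ∈ P, q = p * a ∨ q = p * (1 - a) := by
  simp only [cut, Finset.mem_filter, Finset.mem_image, Finset.mem_product, Finset.mem_univ,
    and_true, Prod.exists]
  constructor
  · rintro ⟨⟨p, b, hp, rfl⟩, h⟩
    exact ⟨h, p, hp, by cases b <;> simp⟩
  · rintro ⟨h, p, hp, rfl | rfl⟩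
    · exact ⟨⟨p, true, hp, by simp⟩, h⟩
    · exact ⟨⟨p, false, hp, by simp⟩, h⟩

lemma IsPartition.cut {P : Finset (H →L[ℂ] H)} (hP : IsPartition M P) {a : H →L[ℂ] H}
    (ha : IsCentralProj M a) : IsPartition M (cut P a) := by
  classical
  set f : (H →L[ℂ] H) × Bool → (H →L[ℂ] H) :=
    fun p => if p.2 then p.1 * a else p.1 * (1 - a) with hf
  set t := P ×ˢ (Finset.univ : Finset Bool) with ht
  have hfc : ∀ i ∈ t, IsCentralProj M (f i) := by
    rintro ⟨p, b⟩ hi
    have hp := hP.cproj p (Finset.mem_product.1 hi).1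
    cases b
    · simpa [f] using centralProj_mul hp (centralProj_compl ha)
    · simpa [f] using centralProj_mul hp ha
  have horth : ∀ i ∈ t, ∀ j ∈ t, i ≠ j → f i * f j = 0 := by
    rintro ⟨p, b⟩ hi ⟨q, b'⟩ hj hne
    have hp := (Finset.mem_product.1 hi).1
    have hq := (Finset.mem_product.1 hj).1
    have hqc := hP.cproj q hq
    have key : ∀ x y : H →L[ℂ] H, x ∈ M → p * x * (q * y) = p * q * (x * y) := fun x y hx => by
      calc p * x * (q * y) = p * (x * q) * y := by simp only [mul_assoc]
        _ = _ := by rw [← hqc.2.2 x hx]; simp only [mul_assoc]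
    have h1 : (1 : H →L[ℂ] H) - a ∈ M := sub_mem (one_mem M) ha.2.1
    by_cases hpq : p = q
    · subst hpq
      cases b <;> cases b' <;> first | exact absurd rfl hne | skip
      · simp only [f, Bool.false_eq_true, if_false, if_true]
        rw [key _ _ h1, sub_mul, one_mul, ha.1.isIdempotentElem.eq, sub_self, mul_zero]
      · simp only [f, Bool.false_eq_true, if_false, if_true]
        rw [key _ _ ha.2.1, mul_sub, mul_one, ha.1.isIdempotentElem.eq, sub_self, mul_zero]
    · cases b <;> cases b' <;> simp only [f, Bool.false_eq_true, if_false, if_true]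
      all_goals rw [key _ _ (by first | exact h1 | exact ha.2.1), hP.orth p hp q hq hpq, zero_mul]
  have hmem : ∀ q ∈ Grp.cut P a, ∃ i ∈ t, f i = q := fun q hq => by
    simp only [Grp.cut, Finset.mem_filter, Finset.mem_image] at hq
    exact hq.1
  refine ⟨fun q hq => ?_, fun q hq => (mem_cut.1 hq).1, fun p hp q hq hne => ?_, ?_⟩
  · obtain ⟨i, hi, rfl⟩ := hmem q hq
    exact hfc i hi
  · obtain ⟨i, hi, rfl⟩ := hmem p hp
    obtain ⟨j, hj, rfl⟩ := hmem q hq
    exact horth i hi j hj fun h => hne (h ▸ rfl)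
  · have e1 : ∑ q ∈ Grp.cut P a, q = ∑ q ∈ t.image f, q := by
      rw [Grp.cut, Finset.sum_filter_ne_zero]
    rw [e1, sum_image_orth t f (fun i hi => (hfc i hi).1.isIdempotentElem.eq) horth, ht,
      Finset.sum_product]
    simp only [f, Fintype.sum_bool, if_true, Bool.false_eq_true, if_false]
    simp only [← mul_add, add_sub_cancel, mul_one, hP.sum]

lemma part_isPartition (hc : ∀ i, IsCentralProj M (c i)) : ∀ n, IsPartition M (part c n)
  | 0 => by
    classical
    refine ⟨fun q hq => ?_, fun q hq => ?_, fun p hp q hq hne => ?_, ?_⟩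
    · simp only [part, Finset.mem_filter, Finset.mem_singleton] at hq
      rw [hq.1]; exact centralProj_one
    · simp only [part, Finset.mem_filter, Finset.mem_singleton] at hq
      exact hq.2
    · simp only [part, Finset.mem_filter, Finset.mem_singleton] at hp hq
      exact absurd (hp.1.trans hq.1.symm) hne
    · rw [part, Finset.sum_filter_ne_zero, Finset.sum_singleton]
  | n + 1 => (part_isPartition hc n).cut (hc n)

lemma part_refine (hc : ∀ i, IsCentralProj M (c i)) {m n : ℕ} (h : m ≤ n) :
    ∀ q ∈ part c n, ∃ p ∈ part c m, q * p = q := by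
  induction h with
  | refl => exact fun q hq => ⟨q, hq, ((part_isPartition hc m).cproj q hq).1.isIdempotentElem.eq⟩
  | @step n hmn ih =>
    intro q hq
    obtain ⟨-, p, hp, e⟩ := mem_cut.1 hq
    obtain ⟨p', hp', hpp⟩ := ih p hp
    refine ⟨p', hp', ?_⟩
    have hc' := (part_isPartition hc m).cproj p' hp'
    rcases e with rfl | rfl
    · rw [mul_assoc, ← hc'.2.2 _ (hc n).2.1, ← mul_assoc, hpp]
    · rw [mul_assoc, ← hc'.2.2 _ (sub_mem (one_mem M) (hc n).2.1), ← mul_assoc, hpp]

/-- Each part lies under or off each of the projections already used. -/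
lemma part_decided (hc : ∀ i, IsCentralProj M (c i)) {i n : ℕ} (h : i < n) {q : H →L[ℂ] H}
    (hq : q ∈ part c n) : q * c i = q ∨ q * c i = 0 := by
  obtain ⟨p, hp, hqp⟩ := part_refine hc (Nat.succ_le_of_lt h) q hq
  obtain ⟨-, p', -, e⟩ := mem_cut.1 hp
  have ha := (hc i).1.isIdempotentElem.eq
  rcases e with e | e
  · left
    rw [← hqp, mul_assoc, e, mul_assoc p', ha]
  · right
    rw [← hqp, mul_assoc, e, mul_assoc p', sub_mul, one_mul, ha, sub_self, mul_zero, mul_zero]

/-- The vector of a decided projection is in the span of the vectors of the parts. -/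
lemma decided_span (hc : ∀ i, IsCentralProj M (c i)) {i n : ℕ} (h : i < n) (ξ : H) :
    c i ξ ∈ Submodule.span ℂ {v | ∃ q ∈ part c n, v = q ξ} := by
  classical
  have e : c i ξ = ∑ q ∈ part c n, (q * c i) ξ := by
    rw [← sum_apply, ← Finset.sum_mul, (part_isPartition hc n).sum, one_mul]
  rw [e]
  refine Submodule.sum_mem _ fun q hq => ?_
  rcases part_decided hc h hq with e | e <;> rw [e]
  · exact Submodule.subset_span ⟨q, hq, rfl⟩
  · simp

end Vale.Agent.P096.Full.Reduce.Grp
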