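import Vale.Agent.P096.Full.Reduce.Groups.Partition

/-!
P096, groups: finite systems of partial isometries, multiplicative below each part of a partition.
-/

open Vale.Agent.P104 Vale.Agent.P104.Continuous

namespace Vale.Agent.P096.Full.Reduce.Grp

universe u

variable {H : Type u} [NormedAddCommGroup H] [InnerProductSpace ℂ H] [CompleteSpace H]

/-- Increasing finite systems of partial isometries of `M` under the central projection `e`,
closed under products below each part of the partitions `cen k`. -/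
structure BSys (M : VonNeumannAlgebra H) (cen : ℕ → Finset (H →L[ℂ] H)) (e : H →L[ℂ] H) where
  /-- The partial isometries. -/
  B : ℕ → Finset (H →L[ℂ] H)
  /-- The projections among them. -/
  D : ℕ → Finset (H →L[ℂ] H)
  mem : ∀ k, ∀ s ∈ B k, s ∈ M
  supp : ∀ k, ∀ s ∈ B k, e * s = s
  sub : ∀ k, D k ⊆ B k
  proj : ∀ k, ∀ d ∈ D k, IsStarProjection d
  orth : ∀ k, ∀ d ∈ D k, ∀ d' ∈ D k, d ≠ d' → d * d' = 0
  sum : ∀ k, ∑ d ∈ D k, d = e
  star' : ∀ k, ∀ s ∈ B k, star s ∈ B k
  off : ∀ k, ∀ s ∈ B k, s ∈ D k ∨ s * s = 0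
  init : ∀ k, ∀ q ∈ cen k, ∀ s ∈ B k, q * s = 0 ∨ ∃ d ∈ D k, q * (star s * s) = q * d
  mul : ∀ k, ∀ q ∈ cen k, ∀ s ∈ B k, ∀ t ∈ B k,
    q * (s * t) = 0 ∨ ∃ u ∈ B k, q * (s * t) = q * u
  mixed : ∀ k, ∀ q ∈ cen (k + 1), ∀ s ∈ B k, ∀ t ∈ B (k + 1),
    q * (s * t) = 0 ∨ ∃ u ∈ B (k + 1), q * (s * t) = q * u
  refine' : ∀ k, ∀ d ∈ D (k + 1), ∃ d0 ∈ D k, d0 * d = d

namespace BSys

variable {M : VonNeumannAlgebra H} {cen : ℕ → Finset (H →L[ℂ] H)} {e e' : H →L[ℂ] H}

lemma cross (he : IsCentralProj M e) (hee' : e * e' = 0) {s t : H →L[ℂ] H} (hs : s ∈ M)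
    (hes : e * s = s) (het : e' * t = t) : s * t = 0 := by
  calc s * t = e * s * (e' * t) := by rw [hes, het]
    _ = (e * s) * e' * t := by simp only [mul_assoc]
    _ = (s * e) * e' * t := by rw [he.2.2 s hs]
    _ = 0 := by rw [mul_assoc s, hee', mul_zero, zero_mul]

open Classical in
/-- Two systems under orthogonal central projections form one. -/
noncomputable def union (S : BSys M cen e) (T : BSys M cen e') (he : IsCentralProj M e)
    (he' : IsCentralProj M e') (hee' : e * e' = 0) : BSys M cen (e + e') where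
  B k := S.B k ∪ T.B k
  D k := S.D k ∪ T.D k
  mem k s hs := (Finset.mem_union.1 hs).elim (S.mem k s) (T.mem k s)
  supp k s hs := by
    have he'e : e' * e = 0 := by rw [← he.2.2 e' he'.2.1, hee']
    rcases Finset.mem_union.1 hs with h | h
    · have h1 := S.supp k s h
      rw [add_mul, h1, ← h1, ← mul_assoc, he'e, zero_mul, add_zero]
    · have h1 := T.supp k s h
      rw [add_mul, h1, ← h1, ← mul_assoc, hee', zero_mul, zero_add]
  sub k := Finset.union_subset_union (S.sub k) (T.sub k)
  proj k d hd := (Finset.mem_union.1 hd).elim (S.proj k d) (T.proj k d)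
  orth k d hd d' hd' hne := by
    have he'e : e' * e = 0 := by rw [← he.2.2 e' he'.2.1, hee']
    rcases Finset.mem_union.1 hd with h | h <;> rcases Finset.mem_union.1 hd' with h' | h'
    · exact S.orth k d h d' h' hne
    · exact cross he hee' (S.mem k d (S.sub k h)) (S.supp k d (S.sub k h))
        (T.supp k d' (T.sub k h'))
    · exact cross he' he'e (T.mem k d (T.sub k h)) (T.supp k d (T.sub k h))
        (S.supp k d' (S.sub k h'))
    · exact T.orth k d h d' h' hne
  sum k := by
    refine Eq.trans ?_ (congrArg₂ (· + ·) (S.sum k) (T.sum k))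
    rw [← Finset.sum_union_inter]
    refine (add_eq_left.2 (Finset.sum_eq_zero fun d hd => ?_)).symm
    obtain ⟨h1, h2⟩ := Finset.mem_inter.1 hd
    rw [← (S.proj k d h1).isIdempotentElem.eq]
    exact cross he hee' (S.mem k d (S.sub k h1)) (S.supp k d (S.sub k h1))
      (T.supp k d (T.sub k h2))
  star' k s hs := (Finset.mem_union.1 hs).elim
    (fun h => Finset.mem_union_left _ (S.star' k s h))
    (fun h => Finset.mem_union_right _ (T.star' k s h))
  off k s hs := (Finset.mem_union.1 hs).elim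
    (fun h => (S.off k s h).imp_left (Finset.mem_union_left _))
    (fun h => (T.off k s h).imp_left (Finset.mem_union_right _))
  init k q hq s hs := (Finset.mem_union.1 hs).elim
    (fun h => (S.init k q hq s h).imp_right fun ⟨d, hd, hd'⟩ =>
      ⟨d, Finset.mem_union_left _ hd, hd'⟩)
    (fun h => (T.init k q hq s h).imp_right fun ⟨d, hd, hd'⟩ =>
      ⟨d, Finset.mem_union_right _ hd, hd'⟩)
  mul k q hq s hs t ht := by
    have he'e : e' * e = 0 := by rw [← he.2.2 e' he'.2.1, hee']
    rcases Finset.mem_union.1 hs with h | h <;> rcases Finset.mem_union.1 ht with h' | h'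
    · exact (S.mul k q hq s h t h').imp_right fun ⟨u, hu, hu'⟩ =>
        ⟨u, Finset.mem_union_left _ hu, hu'⟩
    · left; rw [cross he hee' (S.mem k s h) (S.supp k s h) (T.supp k t h'), mul_zero]
    · left; rw [cross he' he'e (T.mem k s h) (T.supp k s h) (S.supp k t h'), mul_zero]
    · exact (T.mul k q hq s h t h').imp_right fun ⟨u, hu, hu'⟩ =>
        ⟨u, Finset.mem_union_right _ hu, hu'⟩
  mixed k q hq s hs t ht := by
    have he'e : e' * e = 0 := by rw [← he.2.2 e' he'.2.1, hee']
    rcases Finset.mem_union.1 hs with h | h <;> rcases Finset.mem_union.1 ht with h' | h'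
    · exact (S.mixed k q hq s h t h').imp_right fun ⟨u, hu, hu'⟩ =>
        ⟨u, Finset.mem_union_left _ hu, hu'⟩
    · left; rw [cross he hee' (S.mem k s h) (S.supp k s h) (T.supp _ t h'), mul_zero]
    · left; rw [cross he' he'e (T.mem k s h) (T.supp k s h) (S.supp _ t h'), mul_zero]
    · exact (T.mixed k q hq s h t h').imp_right fun ⟨u, hu, hu'⟩ =>
        ⟨u, Finset.mem_union_right _ hu, hu'⟩
  refine' k d hd := (Finset.mem_union.1 hd).elim
    (fun h => let ⟨d0, h0, h0'⟩ := S.refine' k d h; ⟨d0, Finset.mem_union_left _ h0, h0'⟩)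
    (fun h => let ⟨d0, h0, h0'⟩ := T.refine' k d h; ⟨d0, Finset.mem_union_right _ h0, h0'⟩)

lemma mem_union_left {S : BSys M cen e} {T : BSys M cen e'} (he : IsCentralProj M e)
    (he' : IsCentralProj M e') (hee' : e * e' = 0) {k : ℕ} {s : H →L[ℂ] H} (h : s ∈ S.B k) :
    s ∈ (S.union T he he' hee').B k := by
  classical exact Finset.mem_union_left _ h

lemma mem_union_right {S : BSys M cen e} {T : BSys M cen e'} (he : IsCentralProj M e)
    (he' : IsCentralProj M e') (hee' : e * e' = 0) {k : ℕ} {s : H →L[ℂ] H} (h : s ∈ T.B k) :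
    s ∈ (S.union T he he' hee').B k := by
  classical exact Finset.mem_union_right _ h

/-- Changing the name of the projection. -/
def cast (S : BSys M cen e) (h : e = e') : BSys M cen e' := h ▸ S

lemma cast_B (S : BSys M cen e) (h : e = e') : (S.cast h).B = S.B := by subst h; rfl

end BSys

end Vale.Agent.P096.Full.Reduce.Grp
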