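import Vale.Agent.P096.Full.Reduce.Parts
import Vale.Agent.P104.Continuous.Halve

/-!
P096, groups: small facts on central projections, finite sums of orthogonal projections and
tracial vectors.
-/

open scoped InnerProductSpace
open Vale.Agent.P104 Vale.Agent.P104.Continuous

namespace Vale.Agent.P096.Full.Reduce.Grp

universe u

variable {H : Type u} [NormedAddCommGroup H] [InnerProductSpace ℂ H] [CompleteSpace H]
  {M : VonNeumannAlgebra H}

/-- A von Neumann algebra is closed under scalars. -/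
lemma smul_mem' (c : ℂ) {a : H →L[ℂ] H} (ha : a ∈ M) : c • a ∈ M := smul_mem_vn c ha

lemma centralProj_one : IsCentralProj M 1 :=
  ⟨.one _, one_mem M, fun x _ => by rw [one_mul, mul_one]⟩

lemma centralProj_mul {p q : H →L[ℂ] H} (hp : IsCentralProj M p) (hq : IsCentralProj M q) :
    IsCentralProj M (p * q) :=
  ⟨hp.1.mul hq.1 (hp.2.2 q hq.2.1), mul_mem hp.2.1 hq.2.1, fun x hx => by
    rw [mul_assoc, hq.2.2 x hx, ← mul_assoc, hp.2.2 x hx, mul_assoc]⟩

lemma centralProj_compl {p : H →L[ℂ] H} (hp : IsCentralProj M p) : IsCentralProj M (1 - p) :=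
  ⟨hp.1.one_sub, sub_mem (one_mem M) hp.2.1, fun x hx => by
    rw [sub_mul, mul_sub, one_mul, mul_one, hp.2.2 x hx]⟩

/-- Moving a central projection through a product. -/
lemma central_mul_mul {q : H →L[ℂ] H} (hq : IsCentralProj M q) {s t : H →L[ℂ] H} (hs : s ∈ M) :
    q * s * (q * t) = q * (s * t) := by
  calc q * s * (q * t) = q * (s * q) * t := by simp only [mul_assoc]
    _ = q * q * (s * t) := by rw [← hq.2.2 s hs]; simp only [mul_assoc]
    _ = _ := by rw [hq.1.isIdempotentElem.eq]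

lemma central_star {q : H →L[ℂ] H} (hq : IsCentralProj M q) {s : H →L[ℂ] H} (hs : s ∈ M) :
    star (q * s) = q * star s := by
  rw [star_mul, hq.1.isSelfAdjoint.star_eq, ← hq.2.2 _ (star_mem hs)]

section Sums

variable {ι : Type*} {F : Type*} [DecidableEq F] [Ring F]

/-- The sum over the image of an orthogonal family of idempotents. -/
lemma sum_image_orth (t : Finset ι) (f : ι → F) (hidem : ∀ i ∈ t, f i * f i = f i)
    (horth : ∀ i ∈ t, ∀ j ∈ t, i ≠ j → f i * f j = 0) :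
    ∑ d ∈ t.image f, d = ∑ i ∈ t, f i := by
  refine Finset.sum_image_of_pairwise_eq_zero (f := f) (g := fun d : F => d) ?_
  intro i hi j hj hij he
  rw [← hidem i hi]
  nth_rw 2 [he]
  exact horth i hi j hj hij

lemma image_orth [DecidableEq ι] (t : Finset ι) (f : ι → F)
    (horth : ∀ i ∈ t, ∀ j ∈ t, i ≠ j → f i * f j = 0) {a b : F} (ha : a ∈ t.image f)
    (hb : b ∈ t.image f) (hab : a ≠ b) : a * b = 0 := by
  obtain ⟨i, hi, rfl⟩ := Finset.mem_image.1 ha
  obtain ⟨j, hj, rfl⟩ := Finset.mem_image.1 hb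
  exact horth i hi j hj fun h => hab (h ▸ rfl)

end Sums

section Trace

variable {ξ : H} (hT : TracialCyclic M ξ)
include hT

lemma norm_star_apply {a : H →L[ℂ] H} (ha : a ∈ M) : ‖star a ξ‖ = ‖a ξ‖ := by
  have e : ∀ x : H →L[ℂ] H, ⟪x ξ, x ξ⟫_ℂ = ⟪ξ, star x (x ξ)⟫_ℂ := fun x => by
    rw [ContinuousLinearMap.star_eq_adjoint, ContinuousLinearMap.adjoint_inner_right]
  have h : ⟪star a ξ, star a ξ⟫_ℂ = ⟪a ξ, a ξ⟫_ℂ := by
    rw [e, e, star_star]
    exact hT.trace a ha _ (star_mem ha)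
  rw [inner_self_eq_norm_sq_to_K, inner_self_eq_norm_sq_to_K] at h
  exact (sq_eq_sq₀ (norm_nonneg _) (norm_nonneg _)).1 (by exact_mod_cast h)

lemma norm_mul_apply {a m : H →L[ℂ] H} (ha : a ∈ M) (hm : m ∈ M) :
    ‖(a * m) ξ‖ ≤ ‖m‖ * ‖a ξ‖ := by
  rw [← norm_star_apply hT (mul_mem ha hm), star_mul, apply_mul]
  refine ((star m).le_opNorm _).trans_eq ?_
  rw [norm_star, norm_star_apply hT ha]

/-- An element whose vector is a limit of central vectors is central. -/
lemma central_of_closure {w : H →L[ℂ] H} (hw : w ∈ M)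
    (h : w ξ ∈ closure {v | ∃ c, InCentre M c ∧ v = c ξ}) : InCentre M w := by
  refine ⟨hw, fun m hm => sub_eq_zero.1 (hT.separating _
    (sub_mem (mul_mem hw hm) (mul_mem hm hw)) (norm_le_zero_iff.1
      (le_of_forall_pos_le_add fun ε hε => ?_)))⟩
  have hε' : 0 < ε / (2 * ‖m‖ + 1) := by positivity
  obtain ⟨_, ⟨c, hc, rfl⟩, hd⟩ := Metric.mem_closure_iff.1 h _ hε'
  rw [dist_eq_norm, ← sub_apply] at hd
  have e : w * m - m * w = (w - c) * m - m * (w - c) := by
    rw [sub_mul, mul_sub, hc.2 m hm]; abel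
  rw [e, sub_apply, zero_add]
  refine (norm_sub_le _ _).trans ?_
  have h1 := norm_mul_apply hT (sub_mem hw hc.1) hm
  have h2 : ‖(m * (w - c)) ξ‖ ≤ ‖m‖ * ‖(w - c) ξ‖ := m.le_opNorm _
  have h3 : 2 * ‖m‖ * ‖(w - c) ξ‖ ≤ 2 * ‖m‖ * (ε / (2 * ‖m‖ + 1)) :=
    mul_le_mul_of_nonneg_left hd.le (by positivity)
  have h4 : 2 * ‖m‖ * (ε / (2 * ‖m‖ + 1)) ≤ ε := by
    rw [mul_div_assoc', div_le_iff₀ (by positivity)]
    nlinarith [norm_nonneg m]
  linarith

end Trace

end Vale.Agent.P096.Full.Reduce.Grp
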